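import Vale.Agent.P141.H501.CEtop
import Vale.Agent.P141.H971.Dict

/-!
# P141, line W, CE: the fourth moments of one cell from generic uniformity on the boxes

* `GenCell`: one cell: 971's `GenU` (both orders of the gauge variables) for the lift of a function
  which is uniform for the total system of the level `j` on the cell;
* `cfcell_of_gen : GenCell → CFcell`, by `H971.mo4_gain`; `cfOut_of_gen : GenOut → CFOut`.
-/

namespace Vale.Agent.P141.H501

open Finset Function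
open Vale.Agent.P141.H315 (Grid dot)
open Vale.Agent.P141.PL (Pt el fc)
open Vale.Agent.P141.PL.H315 (cube3 Tri iv avg)
open Vale.Agent.P141.PL.H318 (a1)
open Vale.Agent.P141.PL.H95 (gr shf card_gr)
open Vale.Agent.P141.H347 (cd)
open Vale.Agent.P141.H347.Gs (Ex e2 e2_pos e2_le e2_mul)
open Vale.Agent.P141.H782 (gb LSys LSys.S LSys.w)
open Vale.Agent.P141.H8 (Rgn En Un)
open Vale.Agent.P141.H48 (USl)
open Vale.Agent.P141.H922 (n2 n4 wP)
open Vale.Agent.P141.H769 (mo4f lft mo4f_eq)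
open Vale.Agent.P141.H414 (jf cf usl_cf cf_good)
open Vale.Agent.P141.H444 (TDat.sys)
open Vale.Agent.P141.H834 (UnifP LineB gf)
open Vale.Agent.P141.H971 (GenU mo4_gain)

noncomputable section

open scoped Classical

/-- a function on a cell, read through an injective map -/
theorem line_inj {k : ℕ} {g : ℤ → ℤ} (hg : Injective g) (J : Finset ℤ) (O : ℤ → ℝ) (s : ℤ) :
    (avg (iv k s) fun z => (if g z ∈ J then O (g z) else 0) ^ 2) ≤ (2 ^ k : ℝ)⁻¹ * dot J O O := by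
  unfold avg
  rw [PL.H315.card_iv]
  push_cast
  refine mul_le_mul_of_nonneg_left ?_ (by positivity)
  have h1 : ∑ z ∈ iv k s, (if g z ∈ J then O (g z) else 0) ^ 2 =
      ∑ z ∈ (iv k s).filter (fun z => g z ∈ J), O (g z) * O (g z) := by
    rw [sum_filter]
    refine sum_congr rfl fun z _ => ?_
    split_ifs <;> ring
  rw [h1, ← sum_image (f := fun r => O r * O r) fun z _ z' _ h => hg h]
  unfold dot
  refine sum_le_sum_of_subset_of_nonneg ?_ fun _ _ _ => mul_self_nonneg _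
  intro r hr
  rw [mem_image] at hr
  obtain ⟨z, hz, rfl⟩ := hr
  exact (mem_filter.mp hz).2

/-- the line averages of the lift of a function with energy `≤ E 2 ^ k` on the cell -/
theorem lineB_lft {k : ℕ} {c : Pt} (h1 : c.1 ≠ 0) (h2 : c.2.1 ≠ 0) (h3 : c.2.2 ≠ 0)
    {J : Finset ℤ} {O : ℤ → ℝ} {E : ℝ} (hE : dot J O O ≤ E * 2 ^ k) (q : Pt) :
    LineB E (iv k q.1) (iv k q.2.1) (iv k q.2.2) (lft c J O) := by
  have hk : (0 : ℝ) < 2 ^ k := by positivity
  have h0 : (2 ^ k : ℝ)⁻¹ * dot J O O ≤ E := by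
    rw [inv_mul_le_iff₀ hk]
    linarith
  refine ⟨fun y _ z _ => ?_, fun x _ z _ => ?_, fun x _ y _ => ?_⟩
  · refine (line_inj (g := fun t => el c (t, y, z)) ?_ J O q.1).trans h0
    intro t t' h
    simp only [el] at h
    exact mul_left_cancel₀ h1 (by linarith)
  · refine (line_inj (g := fun t => el c (x, t, z)) ?_ J O q.2.1).trans h0
    intro t t' h
    simp only [el] at h
    exact mul_left_cancel₀ h2 (by linarith)
  · refine (line_inj (g := fun t => el c (x, y, t)) ?_ J O q.2.2).trans h0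
    intro t t' h
    simp only [el] at h
    exact mul_left_cancel₀ h3 (by linarith)

/-- **One cell**: generic uniformity on the boxes, both orders of the gauge variables. -/
def GenCell (e : Ex) (n : ℕ) (b : Bool) (j : ℕ) (r : Fin 4) (k : ℕ) (s : ℤ) (ρ : ℝ) : Prop :=
  ∀ F : ℤ → ℝ, dot ((gb n b).cube k s) F F ≤ e.K * cd (gb n b) k s →
    (∀ m, |dot ((gb n b).cube k s) F (((e.T n).sys.S j b r).a k m)| ≤
      e.K * ((e.T n).sys.S j b r).W k ((gb n b).cube k s) m) →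
    ∀ (i : Fin 4) (p : Fin 3), jf i p = r → ∀ q : Pt,
      GenU ρ (e.K * e2 (-1) j) (128 * e.K) (iv k q.2.1) (iv k q.2.2) (iv k q.1)
        (fun y => lft (cf i p) ((gb n b).cube k s) F (y.2.2, y.1, y.2.1)) ∧
      GenU ρ (e.K * e2 (-1) j) (128 * e.K) (iv k q.2.2) (iv k q.2.1) (iv k q.1)
        (fun y => lft (cf i p) ((gb n b).cube k s) F (y.2.2, y.2.1, y.1))

/-- **The fourth moments of one cell.** -/
theorem cfcell_of_gen {e : Ex} {n : ℕ} {b : Bool} {j : ℕ} {r : Fin 4} {k : ℕ} {s : ℤ} {ρ κ : ℝ}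
    (hk : 1 ≤ k) (hρ : 0 ≤ ρ) (hκ : 0 < κ) (hκ1 : κ ≤ 1) (h : GenCell e n b j r k s ρ) :
    CFcell e n b j r k s (7680 * (10369 * κ + ρ * (κ⁻¹ * (√κ)⁻¹)) *
      ((e.K * e2 (-1) j) ^ 2 * (128 * e.K))) := by
  intro F hF hU i p hip q a
  have hK := e.K_pos
  obtain ⟨g1, g2⟩ := h F hF hU i p hip q
  obtain ⟨c1, c2, c3, -, -, -⟩ := cf_good i p
  have hcd : cd (gb n b) k s = 2 ^ (k + 7) := by
    unfold cd
    rw [show ((gb n b).cube k s).card = 2 ^ (k + 7) from card_gr _ _ _ _]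
    push_cast
    rfl
  have hE : dot ((gb n b).cube k s) F F ≤ 128 * e.K * 2 ^ k := by
    refine hF.trans (le_of_eq ?_)
    rw [hcd, pow_add]
    ring
  have hL := lineB_lft c1 c2 c3 hE q
  have hu : USl 7 (shf (n + 7) b) (fun k' s' => k' = k ∧ s' = s) k (fc (jf i p))
      (e.K * e2 (-1) j) F := by
    rintro k' _ _ s' ⟨rfl, rfl⟩ q' u
    have h1 := hU (Sum.inl (q', u))
    rw [hip]
    rw [H444.wP_mul]
    exact h1
  have hu2 := usl_cf i p hu
  have hP0 : UnifP (e.K * e2 (-1) j) (iv k q.1) (iv k q.2.1) (iv k q.2.2)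
      (lft (cf i p) ((gb n b).cube k s) F) :=
    H944.unifP_lft fun u => hu2 k hk le_rfl s ⟨rfl, rfl⟩ q u
  rw [mo4f_eq]
  have key := mo4_gain (A := iv k q.2.1) (B := iv k q.2.2) (C := iv k q.1)
    (G := fun y => lft (cf i p) ((gb n b).cube k s) F (y.2.2, y.1, y.2.1)) hρ hκ hκ1
    (mul_pos hK (e2_pos _ _)).le (by positivity) ⟨q.2.1, PL.H315.self_mem_iv k q.2.1⟩
    ⟨q.2.2, PL.H315.self_mem_iv k q.2.2⟩ (H573.unifP_231 hP0) (H573.lineB_231 hL) g1 g2 a
  rw [mul_pow (n2 _ _) (n4 _ _)] at key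
  exact key

/-- **Generic uniformity on the boxes**, all the cells, with a power gain. -/
def GenOut : Prop := ∃ g c a a' x : ℝ, 0 < g ∧ g ≤ c ∧ c ≤ 1 ∧ 0 ≤ a ∧ 0 ≤ a' ∧ 5 * c < x ∧
  ∀ e : Ex, e.g = g → e.c = c → e.a = a → e.a' = a' → ∃ C : ℝ, 0 ≤ C ∧
    ∀ (n : ℕ) (b : Bool) (j : ℕ), 1 ≤ j → ∀ (r : Fin 4) (k : ℕ) (s : ℤ), 1 ≤ k →
      GenCell e n b j r k s (C * e2 (-x) j)

/-- **The fourth moments from generic uniformity.** -/
theorem cfOut_of_gen (h : GenOut) : CFOut := by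
  obtain ⟨g, c, a, a', x, hg, hgc, hc1, ha, ha', hcx, h⟩ := h
  have hx : 0 < x := by linarith
  refine ⟨g, c, a, a', 2 * x / 5, hg, hgc, hc1, ha, ha', by linarith, fun e heg hec hea hea' => ?_⟩
  obtain ⟨C, hC, h⟩ := h e heg hec hea hea'
  have hK := e.K_pos
  refine ⟨7680 * (10369 + C) * (128 * e.K ^ 3), by positivity, fun n b j hj r k s hk => ?_⟩
  set κ : ℝ := e2 (-(2 * x / 5)) j with hκ
  have hκ0 : 0 < κ := e2_pos _ _
  have hκ1 : κ ≤ 1 := by
    rw [hκ]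
    unfold e2
    refine Real.rpow_le_one_of_one_le_of_nonpos one_le_two ?_
    have h2 : (0 : ℝ) ≤ (j : ℝ) := Nat.cast_nonneg j
    have h3 : 0 ≤ 2 * x / 5 * (j : ℝ) := by positivity
    linarith
  have key := cfcell_of_gen hk (mul_nonneg hC (e2_pos (-x) j).le) hκ0 hκ1 (h n b j hj r k s hk)
  have e1 : C * e2 (-x) j * (κ⁻¹ * (√κ)⁻¹) = C * κ := by
    have h1 : √κ = e2 (-(x / 5)) j := by
      rw [Real.sqrt_eq_rpow, hκ, e2_rpow]
      congr 1
      ring
    rw [h1, hκ, H347.Gs.e2_inv, H347.Gs.e2_inv, mul_assoc, e2_mul, e2_mul]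
    congr 2
    ring
  have e3 : 7680 * (10369 * κ + C * e2 (-x) j * (κ⁻¹ * (√κ)⁻¹)) *
      ((e.K * e2 (-1) j) ^ 2 * (128 * e.K)) =
      7680 * (10369 + C) * (128 * e.K ^ 3) * e2 (-(2 + 2 * x / 5)) j := by
    have h2 : e2 (-(2 + 2 * x / 5)) j = κ * (e2 (-1) j * e2 (-1) j) := by
      rw [hκ, e2_mul, e2_mul]
      congr 1
      ring
    rw [e1, h2]
    ring
  rw [e3] at key
  exact key

end

end Vale.Agent.P141.H501
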