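import Vale.Agent.P141.H501.LevPay
import Vale.Agent.P141.H347.GLev
import Vale.Agent.P141.PL.H855.StepIn

/-!
# P141, line W, module PROC: `StepIn` from CE and END

* `CEOut`: what CE delivers for the systems `Ex.T`; `EndOut`: what END delivers;
* `pay_T`: payers of the levels `j`, `j + 1`; `pay_R`: payers of the rounds;
* `levIn_of`: one level; `stepIn_of`: `CEOut → EndOut → StepIn`.
-/

namespace Vale.Agent.P141.H501

open Finset Function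
open Vale.Agent.P141.H315 (Grid dot)
open Vale.Agent.P141.PL (Pt el fc)
open Vale.Agent.P141.PL.H315 (le cube3 Tri)
open Vale.Agent.P141.PL.H95 (gr shf)
open Vale.Agent.P141.PL.H318 (CSys)
open Vale.Agent.P141.PL.H855 (PayU EndStm LevIn StepIn cC2 cE0 cCk eI)
open Vale.Agent.P141.H347 (LW cd Dat2 Root2)
open Vale.Agent.P141.H347.Gs (Ex kap e2 e2_pos e2_le e2_succ e2_inv one_le_e2 e2_mul gfs)
open Vale.Agent.P141.H782 (gb used LSys LSys.S LSys.w)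
open Vale.Agent.P141.H8 (Rgn En Un K1 MM K1_ge ee ee_pos)
open Vale.Agent.P141.H736 (Cls cost PSys Fg one_le_CgP)
open Vale.Agent.P141.H444 (TSys TDat TDat.sys GenL SU su_of_un csz_fc_7 l2c)
open Vale.Agent.P141.H922 (CgP)
open Vale.Agent.P141.H379 (nvF)

noncomputable section

open scoped Classical

/-- **The output of CE**: exponents `g ≤ c`, `a`, `a'` of the systems and the gain `g1`; for every
constant of the classes, at every level. -/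
def CEOut : Prop := ∃ g c a a' g1 : ℝ, 0 < g ∧ g ≤ c ∧ c ≤ 1 ∧ 0 ≤ a ∧ 0 ≤ a' ∧ 0 < g1 ∧
  ∀ e : Ex, e.g = g → e.c = c → e.a = a → e.a' = a' → ∃ C : ℝ, 0 ≤ C ∧
    ∀ (n : ℕ) (b : Bool) (j : ℕ) (o : ℤ), 1 ≤ j → (o = 1 ∨ o = -1) →
      CEat (b := b) ((e.T n).sys.S j b) o e.K (e.mp j).t (C * e2 (-(1 + g1)) j)

/-- the constants of the team: mixed inheritance, comparability -/
def cG : ℝ := CgP ^ 3

/-- the comparability constant -/
def cH (e : Ex) : ℝ := cG * 2 ^ e.g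

/-- **The output of END** for the systems of `e`, threshold exponent `κ`, ratio exponent `c`. -/
def EndAt (e : Ex) (κ c : ℝ) (nR : ℕ) (A eE : ℝ) : Prop :=
  ∀ (n : ℕ) (P : ℝ), 0 ≤ P → Root2 n P → ∀ f o K V 𝒩 (hd : Dat2 n f o K V 𝒩), ∀ j : ℕ, 1 ≤ j →
    ∀ b, ∀ K' : ℝ, 1 ≤ K' →
    cE0 cG * 2 ^ (-(κ * (j : ℝ))) * (K1 2 cG * 2 ^ (-(c * (j : ℝ)))) ^ nR * K' ≤
      cE0 cG * 2 ^ (-(κ * (j : ℝ))) * (K1 2 cG * MM 2) ^ nR →
    EndStm (nvF hd b ∅) (used n K V f b) K (fun m => (e.T n).sys.w j b m)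
      (fun m => (e.T n).sys.w (j + 1) b m) ((e.T n).sys.S j b) (16 * 4 + 2 ^ (-(κ * (j : ℝ))))
      (cCk cG (cH e)) (2 ^ (-(κ * (j : ℝ))))
      (cE0 cG * 2 ^ (-(κ * (j : ℝ))) * (K1 2 cG * 2 ^ (-(c * (j : ℝ)))) ^ nR) K'
      (A * 2 ^ (-((κ + eE) * (j : ℝ))) * (1 + P))

/-- **The output of END.** -/
def EndOut : Prop := ∀ e : Ex, 0 < e.g → ∀ κ c : ℝ, 0 < κ → κ < e.g → 0 < c → c < κ / 2 →
  ∃ (nR : ℕ) (A eE : ℝ), 0 ≤ A ∧ 0 < eE ∧ EndAt e κ c nR A eE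

theorem one_le_cG : 1 ≤ cG := one_le_pow₀ one_le_CgP

theorem endStm_mono_c {X ι κ α : Type*} {g : Grid X} {nv : PL.H855.N4 g α} {gd : ℕ → X → Prop}
    {L : ℕ} {S S' : Fin 4 → CSys g ι} {w : ∀ m, LW (S m)} {w' : ∀ m, LW (S' m)}
    {U : Fin 4 → CSys g κ} {M C e0 e K c c' : ℝ} (h : EndStm nv gd L w w' U M C e0 e K c)
    (hc : c ≤ c') : EndStm nv gd L w w' U M C e0 e K c' := by
  intro σ Λ x ud h1 h2 h3 P G1 h4 t F h5
  exact (h σ Λ x ud h1 h2 h3 P G1 h4 t F h5).trans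
    (mul_le_mul_of_nonneg_right hc (H347.cd_pos g Λ x).le)

section sys

variable {n : ℕ} (e : Ex)

/-- scalar uniformity from the main systems -/
theorem su_T {j : ℕ} {b : Bool} {a : Fin 4} {C : ℝ} {ud : ℕ → ℤ → Prop} {F : ℤ → ℝ}
    (h : Un ((e.T n).sys.S j b a) C ud F) : SU (shf (n + 7) b) a (C * e2 (-1) j) ud F :=
  su_of_un a (e.mp j).δ_pos _ h

/-- scalar uniformity from the systems of the rounds -/
theorem su_R {j l : ℕ} {s : ℕ → ℝ} {hs : ∀ i, 0 < s i} {b : Bool} {a : Fin 4} {C : ℝ}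
    {ud : ℕ → ℤ → Prop} {F : ℤ → ℝ} (h : Un ((e.R n j s hs).sys.S l b a) C ud F) :
    SU (shf (n + 7) b) a (C * (s l * e2 (-(1 - e.c)) j)) ud F :=
  su_of_un a ((e.rp j).scale (s l) (hs l)).δ_pos _ h

theorem kap_d (j : ℕ) (b : Bool) (hK : 1 ≤ e.K) (z : Fin 4) :
    kap (shf (n + 7) b) (e.mp j).t (e.mp j).t_pos e.K e.K_pos.le z z =
      l2c (gb n b) e.K (zero_le_one.trans hK) := by
  unfold kap
  rw [if_pos rfl]

theorem kap_r (j : ℕ) (b : Bool) (hK : 1 ≤ e.K) (z r : Fin 4) (h : r ≠ z) :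
    kap (shf (n + 7) b) (e.mp j).t (e.mp j).t_pos e.K e.K_pos.le z r =
      H736.stcP 7 (shf (n + 7) b) (fc r) (csz_fc_7 r) (e.mp j).t (e.mp j).t_pos e.K
        (zero_le_one.trans hK) := by
  unfold kap
  rw [if_neg h]

variable {b : Bool} {f : Fin 4 → ℤ → ℝ} {o : ℤ} {K : ℕ} {V : ℤ} {𝒩 : Finset (ℕ × ℤ)}
  (hd : Dat2 n f o K V 𝒩) (𝒞 : Finset (ℕ × ℤ)) {gd : ℕ → ℤ → Prop} {L : ℕ}

/-- **Payers of the levels `j` and `j + 1`.** -/
theorem pay_T {j l : ℕ} (hl : l = j ∨ l = j + 1) (hK : 1 ≤ e.K) {C g1 : ℝ} (hC : 0 ≤ C)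
    (hCE : CEat (b := b) ((e.T n).sys.S j b) o e.K (e.mp j).t (C * e2 (-(1 + g1)) j))
    {κ2 : Type*} {UB : Fin 4 → CSys (gb n b) κ2} {C1 CB EB EZ dB sc : ℝ} (hC1 : C1 ≤ e.K)
    (hsc : 0 < sc) (hEB : EB ≤ e.K * sc ^ 2)
    (hB : ∀ c ud (F : ℤ → ℝ), Un (UB c) CB ud F → SU (shf (n + 7) b) c dB ud F)
    (hdB : dB ≤ (e.mp j).t * sc) :
    PayU (nvF hd b 𝒞) gd L (fun m => (e.T n).sys.w l b m) ((e.T n).sys.S j b) UB C1 CB C1 EB EZ
      (sc * ((32 * C + 16 * cG) * e2 (-(min e.g g1)) j)) := by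
  have hcG := one_le_cG
  have h2 : 0 < e2 e.g j := e2_pos _ _
  have hcost : ∀ m z k x i, ((e.T n).P l b m).live k i →
      cost (kap (shf (n + 7) b) (e.mp j).t (e.mp j).t_pos e.K e.K_pos.le z) o m
        (((e.T n).P l b m).ψ i) k ((gb n b).cube k x) ≤
      8 / e2 e.g j * ((e.T n).P l b m).W k ((gb n b).cube k x) i := by
    intro m z k x i _
    rcases hl with h | h
    · subst h
      refine (e.cost_T l b z hd.ho m k x i).trans ?_
      refine mul_le_mul_of_nonneg_right ?_ (PSys.W_nonneg _ _ _ _)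
      exact div_le_div_of_nonneg_right (by norm_num) h2.le
    · subst h
      exact e.cost_T_succ j b z hd.ho m k x i
  have key := payU_of_ce (e.T n) l b hd 𝒞 (gd := gd) (L := L) (US := (e.T n).sys.S j b) (UB := UB)
    (CA := C1) (CB := CB) (EA := C1) (EB := EB) (EZ := EZ) (KE := e.K) (dc := (e.mp j).t)
    (ce := C * e2 (-(1 + g1)) j) (cg := 8 / e2 e.g j) (CP := cG) (dA := C1 * e2 (-1) j)
    (dB := dB) (sc := sc) hK (e.mp j).t_pos (mul_nonneg hC (e2_pos _ _).le) (by positivity) hsc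
    hCE (fun m => le_of_eq (e.T_C l b m))
    (fun z r => kap (shf (n + 7) b) (e.mp j).t (e.mp j).t_pos e.K e.K_pos.le z r)
    (kap_d e j b hK) (kap_r e j b hK) hcost hC1 hC1 hEB (fun a ud F h => su_T e h) ?_ hB hdB
  · refine key.mono_c ?_
    have hδ : ((e.T n).δ l)⁻¹ ≤ 2 * e2 1 j := by
      refine (e.T_δ_inv l).trans ?_
      rcases hl with h | h
      · subst h
        have := e2_pos 1 l
        linarith
      · subst h
        rw [e2_succ, Real.rpow_one]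
    have e1 : 16 * (sc * (C * e2 (-(1 + g1)) j)) / (e.T n).δ l ≤
        sc * (32 * C * e2 (-(min e.g g1)) j) := by
      rw [div_eq_mul_inv]
      have h3 : 0 ≤ 16 * (sc * (C * e2 (-(1 + g1)) j)) := by
        have := e2_pos (-(1 + g1)) j
        positivity
      refine (mul_le_mul_of_nonneg_left hδ h3).trans ?_
      have h4 : e2 (-(1 + g1)) j * e2 1 j = e2 (-g1) j := by
        rw [e2_mul]
        congr 1
        ring
      have h5 : e2 (-g1) j ≤ e2 (-(min e.g g1)) j := e2_le (neg_le_neg (min_le_right _ _)) j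
      calc 16 * (sc * (C * e2 (-(1 + g1)) j)) * (2 * e2 1 j)
          = sc * (32 * C * (e2 (-(1 + g1)) j * e2 1 j)) := by ring
        _ = sc * (32 * C * e2 (-g1) j) := by rw [h4]
        _ ≤ _ := by gcongr
    have e3 : 2 * cG * (sc * (8 / e2 e.g j)) ≤ sc * (16 * cG * e2 (-(min e.g g1)) j) := by
      have h5 : e2 (-e.g) j ≤ e2 (-(min e.g g1)) j := e2_le (neg_le_neg (min_le_left _ _)) j
      have h6 : 8 / e2 e.g j = 8 * e2 (-e.g) j := by rw [div_eq_mul_inv, e2_inv]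
      rw [h6]
      calc 2 * cG * (sc * (8 * e2 (-e.g) j)) = sc * (16 * cG * e2 (-e.g) j) := by ring
        _ ≤ _ := by gcongr
    calc 16 * (sc * (C * e2 (-(1 + g1)) j)) / (e.T n).δ l + 2 * cG * (sc * (8 / e2 e.g j))
        ≤ sc * (32 * C * e2 (-(min e.g g1)) j) + sc * (16 * cG * e2 (-(min e.g g1)) j) :=
          add_le_add e1 e3
      _ = _ := by ring
  · show C1 * e2 (-1) j ≤ e.K * e2 (-(1 - e.c)) j
    have h3 : e2 (-1) j ≤ e2 (-(1 - e.c)) j := e2_le (by linarith [e.g_nn, e.g_le]) j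
    exact mul_le_mul hC1 h3 (e2_pos _ _).le e.K_pos.le

/-- **Payers of the rounds**, two companions uniform for the level `j`. -/
theorem pay_R {j l : ℕ} {s : ℕ → ℝ} (hs : ∀ i, 0 < s i) (hK : 1 ≤ e.K) {C g1 : ℝ} (hC : 0 ≤ C)
    (hg1 : 0 ≤ g1)
    (hCE : CEat (b := b) ((e.T n).sys.S j b) o e.K (e.mp j).t (C * e2 (-(1 + g1)) j))
    {C1 EZ : ℝ} (hC1 : C1 ≤ e.K) :
    PayU (nvF hd b 𝒞) gd L (fun m => (e.R n j s hs).sys.w l b m) ((e.T n).sys.S j b)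
      ((e.T n).sys.S j b) C1 C1 C1 C1 EZ ((s l)⁻¹ * ((16 * C + 2 * cG) * e2 (-e.c) j)) := by
  have hcG := one_le_cG
  have hsl := hs l
  have hle : C1 * e2 (-1) j ≤ (e.mp j).t := by
    show C1 * e2 (-1) j ≤ e.K * e2 (-(1 - e.c)) j
    have h3 : e2 (-1) j ≤ e2 (-(1 - e.c)) j := e2_le (by linarith [e.g_nn, e.g_le]) j
    exact mul_le_mul hC1 h3 (e2_pos _ _).le e.K_pos.le
  have hp : 0 < e2 e.c j := e2_pos _ _
  have key := payU_of_ce (e.R n j s hs) l b hd 𝒞 (gd := gd) (L := L) (US := (e.T n).sys.S j b)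
    (UB := (e.T n).sys.S j b) (CA := C1) (CB := C1) (EA := C1) (EB := C1) (EZ := EZ) (KE := e.K)
    (dc := (e.mp j).t) (ce := C * e2 (-(1 + g1)) j) (cg := 1 / (s l * e2 e.c j)) (CP := cG)
    (dA := C1 * e2 (-1) j) (dB := C1 * e2 (-1) j) (sc := 1) hK (e.mp j).t_pos
    (mul_nonneg hC (e2_pos _ _).le) (by positivity) one_pos hCE
    (fun m => le_of_eq (e.R_C j s hs l b m))
    (fun z r => kap (shf (n + 7) b) (e.mp j).t (e.mp j).t_pos e.K e.K_pos.le z r)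
    (kap_d e j b hK) (kap_r e j b hK)
    (fun m z k x i _ => e.cost_R j s hs l b z hd.ho m k x i) hC1 hC1
    (by rw [one_pow, mul_one]; exact hC1) (fun a ud F h => su_T e h) hle
    (fun a ud F h => su_T e h) (by rw [mul_one]; exact hle)
  refine key.mono_c ?_
  have hδ : (e.R n j s hs).δ l = s l * e2 (-(1 - e.c)) j := rfl
  have e1 : 16 * (1 * (C * e2 (-(1 + g1)) j)) / (e.R n j s hs).δ l ≤
      (s l)⁻¹ * (16 * C * e2 (-e.c) j) := by
    rw [hδ, div_eq_mul_inv, mul_inv, e2_inv, neg_neg]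
    have h4 : e2 (-(1 + g1)) j * e2 (1 - e.c) j = e2 (-(g1 + e.c)) j := by
      rw [e2_mul]
      congr 1
      ring
    have h5 : e2 (-(g1 + e.c)) j ≤ e2 (-e.c) j := e2_le (by linarith) j
    calc 16 * (1 * (C * e2 (-(1 + g1)) j)) * ((s l)⁻¹ * e2 (1 - e.c) j)
        = (s l)⁻¹ * (16 * C * (e2 (-(1 + g1)) j * e2 (1 - e.c) j)) := by ring
      _ = (s l)⁻¹ * (16 * C * e2 (-(g1 + e.c)) j) := by rw [h4]
      _ ≤ _ := by
        have := inv_pos.2 hsl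
        gcongr
  have e3 : 2 * cG * (1 * (1 / (s l * e2 e.c j))) = (s l)⁻¹ * (2 * cG * e2 (-e.c) j) := by
    rw [one_div, mul_inv, e2_inv]
    ring
  rw [e3]
  calc 16 * (1 * (C * e2 (-(1 + g1)) j)) / (e.R n j s hs).δ l + (s l)⁻¹ * (2 * cG * e2 (-e.c) j)
      ≤ (s l)⁻¹ * (16 * C * e2 (-e.c) j) + (s l)⁻¹ * (2 * cG * e2 (-e.c) j) :=
        add_le_add e1 le_rfl
    _ = _ := by ring

end sys

/-! ### One level -/

section level

variable {n : ℕ} (e : Ex) {b : Bool} {f : Fin 4 → ℤ → ℝ} {o : ℤ} {K : ℕ} {V : ℤ}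
  {𝒩 : Finset (ℕ × ℤ)} (hd : Dat2 n f o K V 𝒩)

/-- **One level from CE and END.** -/
theorem levIn_of {κ c : ℝ} (hκ : 0 < κ) {j nR : ℕ} {s : ℕ → ℝ} (hs : ∀ i, 0 < s i)
    (hsi : ∀ i, s i = √(eI cG (2 ^ (-(c * (j : ℝ)))) (2 ^ (-(κ * (j : ℝ)))) i))
    (hK1 : 1 ≤ e.K) (hK2 : cCk cG (cH e) ≤ e.K) (hK3 : K1 2 cG ≤ e.K) (hK4 : cG ≤ e.K) {C g1 : ℝ}
    (hC : 0 ≤ C) (hg1 : 0 < g1)
    (hCE : CEat (b := b) ((e.T n).sys.S j b) o e.K (e.mp j).t (C * e2 (-(1 + g1)) j)) {cE : ℝ}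
    (hEnd : ∀ K' : ℝ, 1 ≤ K' →
      cE0 cG * 2 ^ (-(κ * (j : ℝ))) * (K1 2 cG * 2 ^ (-(c * (j : ℝ)))) ^ nR * K' ≤
        cE0 cG * 2 ^ (-(κ * (j : ℝ))) * (K1 2 cG * MM 2) ^ nR →
      EndStm (nvF hd b ∅) (used n K V f b) K (fun m => (e.T n).sys.w j b m)
        (fun m => (e.T n).sys.w (j + 1) b m) ((e.T n).sys.S j b) (16 * 4 + 2 ^ (-(κ * (j : ℝ))))
        (cCk cG (cH e)) (2 ^ (-(κ * (j : ℝ))))
        (cE0 cG * 2 ^ (-(κ * (j : ℝ))) * (K1 2 cG * 2 ^ (-(c * (j : ℝ)))) ^ nR) K' cE) {A : ℝ}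
    (hA : (32 * C + 16 * cG) * (1 + √(K1 2 cG) * 130) ≤ A) :
    LevIn (e.T n).sys j b (fun i m => (e.R n j s hs).sys.S i b m)
      (fun i m => (e.R n j s hs).sys.w i b m) (nvF hd b ∅) (used n K V f b) K nR cG (cH e)
      (2 ^ (-(κ * (j : ℝ)))) (2 ^ (-(c * (j : ℝ)))) (A * 2 ^ (-(min e.g g1 * (j : ℝ))))
      (A * 2 ^ (-(e.c * (j : ℝ)))) (A * 2 ^ (-(min e.g g1 * (j : ℝ)))) cE := by
  have hcG := one_le_cG
  have hcG0 : (0 : ℝ) ≤ cG := zero_le_one.trans hcG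
  have hk1 : 1 ≤ K1 2 cG := K1_ge (by norm_num) hcG0
  have hk10 : 0 < K1 2 cG := lt_of_lt_of_le one_pos hk1
  have hsk : 1 ≤ √(K1 2 cG) := by
    rw [show (1 : ℝ) = √1 by rw [Real.sqrt_one]]
    exact Real.sqrt_le_sqrt hk1
  have hB0 : 0 ≤ 32 * C + 16 * cG := by positivity
  have hA1 : 32 * C + 16 * cG ≤ A := by
    refine le_trans ?_ hA
    refine le_mul_of_one_le_right hB0 ?_
    linarith
  have hA2 : (32 * C + 16 * cG) * √(K1 2 cG) * 130 ≤ A := by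
    refine le_trans (le_of_eq ?_) ((mul_le_mul_of_nonneg_left (a := 32 * C + 16 * cG)
      (by linarith : √(K1 2 cG) * 130 ≤ 1 + √(K1 2 cG) * 130) hB0).trans hA)
    ring
  have hA3 : (32 * C + 16 * cG) * √(K1 2 cG) ≤ A := by
    refine le_trans ?_ hA2
    refine le_mul_of_one_le_right (by positivity) (by norm_num)
  have ee2 : ∀ x : ℝ, (2 : ℝ) ^ (-(x * (j : ℝ))) = e2 (-x) j := fun x => by
    unfold e2
    rw [neg_mul]
  have hE2 : ∀ x : ℝ, 0 < (2 : ℝ) ^ (-(x * (j : ℝ))) := fun x => Real.rpow_pos_of_pos two_pos _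
  have he0 : 0 < (2 : ℝ) ^ (-(κ * (j : ℝ))) := hE2 κ
  have he1 : (2 : ℝ) ^ (-(κ * (j : ℝ))) ≤ 1 :=
    Real.rpow_le_one_of_one_le_of_nonpos one_le_two (by
      have : 0 ≤ κ * (j : ℝ) := by positivity
      linarith)
  have heI : ∀ i, 0 < eI cG (2 ^ (-(c * (j : ℝ)))) (2 ^ (-(κ * (j : ℝ)))) i := by
    intro i
    refine ee_pos (by norm_num) hcG0 (hE2 c) ?_ i
    unfold cE0 cC2
    positivity
  set ε := eI cG (2 ^ (-(c * (j : ℝ)))) (2 ^ (-(κ * (j : ℝ)))) with hε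
  have hC0 : 0 ≤ cH e := mul_nonneg hcG0 (Real.rpow_nonneg two_pos.le _)
  have g0 : 0 ≤ (2 : ℝ) ^ (-(min e.g g1 * (j : ℝ))) := (hE2 _).le
  have hsuR : ∀ i, ∀ (a : Fin 4) (ud : ℕ → ℤ → Prop) (F : ℤ → ℝ),
      Un ((e.R n j s hs).sys.S i b a) cG ud F →
      SU (shf (n + 7) b) a (cG * (s i * e2 (-(1 - e.c)) j)) ud F := fun i a ud F h => su_R e h
  have hsuT : ∀ (a : Fin 4) (ud : ℕ → ℤ → Prop) (F : ℤ → ℝ),
      Un ((e.T n).sys.S j b a) (cCk cG (cH e)) ud F →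
      SU (shf (n + 7) b) a (cCk cG (cH e) * e2 (-1) j) ud F := fun a ud F h => su_T e h
  have hdT : cCk cG (cH e) * e2 (-1) j ≤ (e.mp j).t * 1 := by
    rw [mul_one]
    show cCk cG (cH e) * e2 (-1) j ≤ e.K * e2 (-(1 - e.c)) j
    have h3 : e2 (-1) j ≤ e2 (-(1 - e.c)) j := e2_le (by linarith [e.g_nn, e.g_le]) j
    exact mul_le_mul hK2 h3 (e2_pos _ _).le e.K_pos.le
  have hdR : ∀ i, cG * (s i * e2 (-(1 - e.c)) j) ≤ (e.mp j).t * s i := by
    intro i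
    show cG * (s i * e2 (-(1 - e.c)) j) ≤ e.K * e2 (-(1 - e.c)) j * s i
    have h3 : 0 ≤ s i * e2 (-(1 - e.c)) j := mul_nonneg (hs i).le (e2_pos _ _).le
    calc cG * (s i * e2 (-(1 - e.c)) j) ≤ e.K * (s i * e2 (-(1 - e.c)) j) :=
          mul_le_mul_of_nonneg_right hK4 h3
      _ = _ := by ring
  have hER : ∀ i, K1 2 cG * ε i ≤ e.K * s i ^ 2 := by
    intro i
    rw [hsi i, Real.sq_sqrt (heI i).le]
    exact mul_le_mul_of_nonneg_right hK3 (heI i).le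
  -- the main payments
  have hmain : ∀ l, (l = j ∨ l = j + 1) → PayU (nvF hd b ∅) (used n K V f b) K
      (fun m => (e.T n).sys.w l b m) ((e.T n).sys.S j b) ((e.T n).sys.S j b) (cCk cG (cH e))
      (cCk cG (cH e)) (cCk cG (cH e)) (cCk cG (cH e)) (cCk cG (cH e))
      (A * 2 ^ (-(min e.g g1 * (j : ℝ)))) := by
    intro l hl
    refine (pay_T e hd ∅ hl hK1 hC hCE hK2 one_pos (by rw [one_pow, mul_one]; exact hK2) hsuT
      hdT).mono_c ?_
    rw [one_mul, ee2]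
    exact mul_le_mul_of_nonneg_right hA1 (e2_pos _ _).le
  -- the payments of the rounds, one companion uniform for the round
  have hrnd : ∀ i l, (l = j ∨ l = j + 1) → PayU (nvF hd b ∅) (used n K V f b) K
      (fun m => (e.T n).sys.w l b m) ((e.T n).sys.S j b) (fun m => (e.R n j s hs).sys.S i b m)
      (cCk cG (cH e)) cG (cCk cG (cH e)) (K1 2 cG * ε i) (K1 2 cG * ε i)
      (s i * ((32 * C + 16 * cG) * e2 (-(min e.g g1)) j)) := fun i l hl =>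
    pay_T e hd ∅ hl hK1 hC hCE hK2 (hs i) (hER i) (hsuR i) (hdR i)
  have hsq : ∀ i, √(K1 2 cG * ε i) = √(K1 2 cG) * s i := fun i => by
    rw [Real.sqrt_mul hk10.le, hsi i]
  refine ⟨hmain j (Or.inl rfl), hmain (j + 1) (Or.inr rfl), ?_, ?_, ?_, hEnd⟩
  · intro m ud G hG
    exact e.T_cmp j b m hcG0 hG
  · intro i _ m
    exact e.mix_R j s hs i b m
  · intro i _
    refine ⟨(s i)⁻¹ * ((16 * C + 2 * cG) * e2 (-e.c) j),
      s i * ((32 * C + 16 * cG) * e2 (-(min e.g g1)) j), ?_, ?_, ?_, ?_, ?_, ?_, ?_⟩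
    · have := inv_pos.2 (hs i)
      have := e2_pos (-e.c) j
      positivity
    · have := hs i
      have := e2_pos (-(min e.g g1)) j
      positivity
    · rw [hsq, ee2]
      have h1 : (s i)⁻¹ * ((16 * C + 2 * cG) * e2 (-e.c) j) * (√(K1 2 cG) * s i) =
          (16 * C + 2 * cG) * √(K1 2 cG) * e2 (-e.c) j * ((s i)⁻¹ * s i) := by ring
      rw [h1, inv_mul_cancel₀ (hs i).ne', mul_one]
      refine mul_le_mul_of_nonneg_right (le_trans ?_ hA3) (e2_pos _ _).le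
      refine mul_le_mul_of_nonneg_right (by linarith) (Real.sqrt_nonneg _)
    · rw [hsq, ee2 (min e.g g1)]
      have h1 : s i * ((32 * C + 16 * cG) * e2 (-(min e.g g1)) j) * (√(K1 2 cG) * s i) *
          (32 * 4 + 2 * 2 ^ (-(κ * (j : ℝ)))) =
          ((32 * C + 16 * cG) * √(K1 2 cG) * (32 * 4 + 2 * 2 ^ (-(κ * (j : ℝ))))) *
            e2 (-(min e.g g1)) j * s i ^ 2 := by ring
      have h2 : s i ^ 2 = ε i := by rw [hsi i, Real.sq_sqrt (heI i).le]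
      rw [h1, h2]
      refine mul_le_mul_of_nonneg_right ?_ (heI i).le
      refine mul_le_mul_of_nonneg_right (le_trans ?_ hA2) (e2_pos _ _).le
      exact mul_le_mul_of_nonneg_left (by linarith) (by positivity)
    · intro L'
      exact pay_R e hd ∅ hs hK1 hC hg1.le hCE hK2
    · exact hrnd i j (Or.inl rfl)
    · exact hrnd i (j + 1) (Or.inr rfl)

end level

/-- **`StepIn` from CE and END.** -/
theorem stepIn_of (hCE : CEOut) (hEND : EndOut)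
    (hGen : ∀ e : Ex, ∃ cg : ℕ → ℝ, (∀ j, 0 ≤ cg j) ∧ ∀ n j, GenL (e.T n) j (cg j)) :
    StepIn := by
  obtain ⟨g, c, a, a', g1, hg, hgc, hc1, ha, ha', hg1, hCE⟩ := hCE
  have hcG := one_le_cG
  have hcG0 : (0 : ℝ) ≤ cG := zero_le_one.trans hcG
  have hk1 : 1 ≤ K1 2 cG := K1_ge (by norm_num) hcG0
  have hC0 : 0 ≤ cG * (2 : ℝ) ^ g := mul_nonneg hcG0 (Real.rpow_nonneg two_pos.le _)
  have hcCk : 256 + 2 * cG ≤ cCk cG (cG * 2 ^ g) := by
    unfold cCk cE0 cC2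
    linarith
  obtain ⟨e, heK, heg, hec, hea, hea'⟩ : ∃ e : Ex, e.K = cCk cG (cG * 2 ^ g) + K1 2 cG ∧
      e.g = g ∧ e.c = c ∧ e.a = a ∧ e.a' = a' :=
    ⟨⟨cCk cG (cG * 2 ^ g) + K1 2 cG, g, c, a, a', by linarith, hg.le, hgc, hc1, ha, ha'⟩,
      rfl, rfl, rfl, rfl, rfl⟩
  have hcH : cH e = cG * 2 ^ g := by unfold cH; rw [heg]
  obtain ⟨C, hC, hCE⟩ := hCE e heg hec hea hea'
  obtain ⟨cg, hcg, hGen⟩ := hGen e
  set g0 := min e.g g1 with hg0
  have hg0' : 0 < g0 := lt_min (by rw [heg]; exact hg) hg1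
  have hg0g : g0 ≤ e.g := min_le_left _ _
  obtain ⟨nR, AE, eE, hAE, heE, hEnd⟩ := hEND e (by rw [heg]; exact hg) (g0 / 2) (g0 / 8)
    (by linarith) (by linarith) (by linarith) (by linarith)
  have hsI : ∀ (j i : ℕ), 0 < √(eI cG (2 ^ (-(g0 / 8 * (j : ℝ)))) (2 ^ (-(g0 / 2 * (j : ℝ)))) i) := by
    intro j i
    refine Real.sqrt_pos.2 (ee_pos (by norm_num) hcG0 (Real.rpow_pos_of_pos two_pos _) ?_ i)
    have : (0 : ℝ) < 2 ^ (-(g0 / 2 * (j : ℝ))) := Real.rpow_pos_of_pos two_pos _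
    unfold cE0 cC2
    positivity
  have hB1 : 0 ≤ (32 * C + 16 * cG) * (1 + √(K1 2 cG) * 130) := by positivity
  refine ⟨cG, cH e, (32 * C + 16 * cG) * (1 + √(K1 2 cG) * 130) + AE + 130, g0 / 2, g0 / 8, g0,
    e.c, g0, eE, 1 + e.a, nR, fun j => e2 1 j, fun j => 130 * e2 (1 + e.a) j, cg,
    Ex.CgP_le_cube, by rw [hcH]; exact hC0, by positivity, by linarith, by linarith, by linarith,
    ?_, by linarith, by linarith, heE, by linarith [e.a_nn], hcg, ?_, ?_⟩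
  · have := e.g_le
    linarith
  · intro j
    unfold e2
    refine mul_le_mul_of_nonneg_right ?_ (Real.rpow_nonneg two_pos.le _)
    linarith
  · intro n P hP hroot
    refine ⟨Fg, e.T n, (Pt × Tri) ⊕ Fg,
      fun j b i m => (e.R n j (fun i => √(eI cG (2 ^ (-(g0 / 8 * (j : ℝ))))
        (2 ^ (-(g0 / 2 * (j : ℝ)))) i)) (hsI j)).sys.S i b m,
      fun j b i m => (e.R n j (fun i => √(eI cG (2 ^ (-(g0 / 8 * (j : ℝ))))
        (2 ^ (-(g0 / 2 * (j : ℝ)))) i)) (hsI j)).sys.w i b m,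
      e.T_lim, e.T_δ_inv, e.T_K, fun j b i => le_of_eq (e.T_C j b i), hGen n, ?_⟩
    intro f o K V 𝒩 hd j hj b
    have hK1 : 1 ≤ e.K := by rw [heK]; linarith
    have hE2 : ∀ x : ℝ, 0 ≤ (2 : ℝ) ^ (-(x * (j : ℝ))) := fun x => Real.rpow_nonneg two_pos.le _
    refine levIn_of e hd (κ := g0 / 2) (c := g0 / 8) (by linarith) (nR := nR) (hsI j)
      (fun i => rfl) hK1 (by rw [heK, hcH]; linarith) (by rw [heK]; linarith)
      (by rw [heK]; linarith) hC hg1 (hCE n b j o hj hd.ho) ?_ (by linarith)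
    intro K' hK' hKK
    refine endStm_mono_c (hEnd n P hP hroot f o K V 𝒩 hd j hj b K' hK' hKK) ?_
    refine mul_le_mul_of_nonneg_right ?_ (by linarith)
    refine mul_le_mul_of_nonneg_right ?_ (Real.rpow_nonneg two_pos.le _)
    linarith

end

end Vale.Agent.P141.H501
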