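import Vale.Agent.P141.H501.RndS
import Vale.Agent.P141.H610.EndNum

/-!
# P141, line W, PROC: the term `(GP; G1, X, X)` on the stage-0 window

`l4_win`: the recursion with its numbers and END (`H610.rec_num_end`), with the hypotheses of the
rounds from `PayU` (`rnd_payU_st`) and the input of END from `endIn_win`.
-/

namespace Vale.Agent.P141.H501

open Finset Function
open Vale.Agent.P141.PL.H571 (W)
open Vale.Agent.P141.PL.H95 (gr)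
open Vale.Agent.P141.H315 Vale.Agent.P141.PL.H318 Vale.Agent.P141.H347 Vale.Agent.P141.H297
open Vale.Agent.P141.H8 Vale.Agent.P141.PL.H855 Vale.Agent.P141.H935
open Vale.Agent.P141.H610 (BoxHyp mbb_of_box cutR cd_gr en_sub en_Ue un_Ue en_sub_Ue rec_num_end)

noncomputable section

open scoped Classical

/-- the window is a region -/
theorem rgn_wr {X ι : Type*} {g : Grid X} {J : Type*} [Fintype J] {S : J → CSys g ι}
    {w : ∀ j, LW (S j)} {L : ℕ} {e : ℝ} {F : J → X → ℝ} {gd : ℕ → X → Prop}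
    {V H : J → ℕ → X → ℝ} {rs : J → ℕ → X → Prop} {lm : J → ℕ → X → ℝ} {e0 C2 : ℝ} {Λ : ℕ}
    (hP : Paths w L e F gd V H rs lm) (hΛ : Λ ≤ L) (z : X) :
    Rgn g (Wr g gd (tp w L gd V H rs e0 C2) Λ z) Λ z (Wr g gd (tp w L gd V H rs e0 C2) Λ z) where
  const k y y' hy' := by
    unfold Wr
    constructor
    · rintro ⟨h1, h2, h3, h4⟩
      have h5 : y ∈ g.cube k y' := by rw [g.eq_of_mem k y y' hy']; exact g.mem k y
      refine ⟨(hP.gd_const k y y' hy').1 h1, h2, g.cube_subset h2 h3 h5, ?_⟩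
      rw [tp_const w L gd V H rs e0 C2 (h2.trans hΛ) h5]; exact h4
    · rintro ⟨h1, h2, h3, h4⟩
      refine ⟨(hP.gd_const k y y' hy').2 h1, h2, g.cube_subset h2 h3 hy', ?_⟩
      rw [tp_const w L gd V H rs e0 C2 (h2.trans hΛ) hy']; exact h4
  up k hk y := by
    rintro ⟨h1, h2, h3, h4⟩
    refine ⟨hP.gd_up k (by omega) y h1, hk, h3, ?_⟩
    rw [tp_between w L gd V H rs e0 C2 (k := k) (i := k + 1) (by omega) (by omega)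
      (by rw [h4]; exact hk), h4]
  bel k y := fun ⟨_, h2, h3, _⟩ => ⟨h2, h3⟩
  sub k y h := h

variable {ι ι' κ α : Type*} {s : ℤ} {J : Type*} [Fintype J] {S : J → CSys (gr 7 s) ι}
  {w : ∀ j, LW (S j)} {L : ℕ} {e : ℝ} {F : J → ℤ → ℝ} {gd : ℕ → ℤ → Prop}
  {V H : J → ℕ → ℤ → ℝ} {rs : J → ℕ → ℤ → Prop} {lm : J → ℕ → ℤ → ℝ} {e0 C2 : ℝ}
  {Λ : ℕ} {z : ℤ} {nv : N4 (gr 7 s) α} {UA : Fin 4 → CSys (gr 7 s) κ}
  {R : ℕ → Fin 4 → CSys (gr 7 s) ι'} {wR : ∀ i m, LW (R i m)}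

/-- the number of the term `(GP; G1, X, X)` -/
def numL4 (C2 Cm C1 Cg e0 E τ CP Pm Q1 cE : ℝ) (n : ℕ) : ℝ :=
  (32 * Pm + 2 * (Q1 + CP * (2 * szX C2 Cm e0 * (68 * √C1) * (68 ^ 2 * K1 2 Cg)) / 128)) *
    (n * (E * (K1 2 Cg * MM 2) ^ n * (MM 2 / τ))) +
  CP * (2 * szX C2 Cm e0 * (68 * √C1) * (10 ^ 4 * (E * (K1 2 Cg * MM 2) ^ n))) / 128 + cE

/-- **The term** `(GP; G1, X, X)` on every sub-region of the stage-0 window: `n` rounds with the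
systems `R i`, the ratio `τ` and the start energy `E`; `X` = value at the top minus END value. -/
theorem l4_win (σ : Equiv.Perm (Fin 4)) (hP : Paths w L e F gd V H rs lm) (he : 0 ≤ e)
    (he0 : 0 < e0) (hΛ : Λ ≤ L) {Cm : ℝ} (hM : ∀ j, Mix (S j) Cm) (hC : 0 ≤ Cm) (hC2 : 0 ≤ C2)
    (jo jn : Fin 4 → J) (hF : F (jo (σ.symm 0)) = F (jn (σ.symm 0)))
    {G1 : ℤ → ℝ} {C1 CP Cg : ℝ} (hC1 : 4 * (4 * (2 * C2 + 3) + 2 * (1 + 2 * Cm)) ≤ C1)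
    (hCP : 0 ≤ CP) (hb : BoxHyp nv (Wr (gr 7 s) gd (tp w L gd V H rs e0 C2) Λ z) CP)
    (hGe : En (gr 7 s) (Wr (gr 7 s) gd (tp w L gd V H rs e0 C2) Λ z) (fun y =>
      Ue w L gd V H rs e0 C2 (jo (σ.symm 0)) Λ y - Ue w L gd V H rs e0 C2 (jn (σ.symm 0)) Λ y) C1)
    (hGu : Un (UA (σ.symm 0)) C1 (Wr (gr 7 s) gd (tp w L gd V H rs e0 C2) Λ z) (fun y =>
      Ue w L gd V H rs e0 C2 (jo (σ.symm 0)) Λ y - Ue w L gd V H rs e0 C2 (jn (σ.symm 0)) Λ y))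
    (h1e : En (gr 7 s) (Wr (gr 7 s) gd (tp w L gd V H rs e0 C2) Λ z) G1 C1)
    (h1u : Un (UA (σ.symm 1)) C1 (Wr (gr 7 s) gd (tp w L gd V H rs e0 C2) Λ z) G1)
    (hCg : 0 ≤ Cg) {n : ℕ} (hMR : ∀ i < n, ∀ m, Mix (R i m) Cg) {τ E : ℝ} (hτ : 0 < τ)
    (hτ1 : τ ≤ 1) (hE : 0 < E) (hE0 : (4 * (2 * C2 + 3) + 2 * (1 + 2 * Cm)) * e0 ≤ E)
    {c2 c3 : ℕ → ℝ} (hc2 : ∀ i < n, 0 ≤ c2 i) (hc3 : ∀ i < n, 0 ≤ c3 i)
    (H2 : ∀ i < n, ∀ L', PayU nv (Wr (gr 7 s) gd (tp w L gd V H rs e0 C2) Λ z) L' (wR i) UA UA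
      C1 C1 C1 C1 (K1 2 Cg * ee 2 Cg τ E i) (c2 i))
    (H3o : ∀ i < n, PayU nv (Wr (gr 7 s) gd (tp w L gd V H rs e0 C2) Λ z) L (fun m => w (jo m))
      UA (R i) C1 Cg C1 (K1 2 Cg * ee 2 Cg τ E i) (K1 2 Cg * ee 2 Cg τ E i) (c3 i))
    (H3n : ∀ i < n, PayU nv (Wr (gr 7 s) gd (tp w L gd V H rs e0 C2) Λ z) L (fun m => w (jn m))
      UA (R i) C1 Cg C1 (K1 2 Cg * ee 2 Cg τ E i) (K1 2 Cg * ee 2 Cg τ E i) (c3 i))
    {Pm Q1 : ℝ} (hPm0 : 0 ≤ Pm) (hQ10 : 0 ≤ Q1)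
    (hPm : ∀ i < n, c2 i * √(K1 2 Cg * ee 2 Cg τ E i) ≤ Pm)
    (hQ1 : ∀ i < n, c3 i * √(K1 2 Cg * ee 2 Cg τ E i) * (32 * e + 2 * e0) ≤
      Q1 * ee 2 Cg τ E i) {cE : ℝ}
    (hEnd : ∀ K : ℝ, 1 ≤ K → E * (K1 2 Cg * τ) ^ n * K ≤ E * (K1 2 Cg * MM 2) ^ n →
      EndStm nv (Wr (gr 7 s) gd (tp w L gd V H rs e0 C2) Λ z) L (fun m => w (jo m))
        (fun m => w (jn m)) UA (16 * e + e0) C1 e0 (E * (K1 2 Cg * τ) ^ n) K cE)
    {L0 : ℕ} {x0 : ℤ} {ud : ℕ → ℤ → Prop}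
    (hR : Rgn (gr 7 s) (Wr (gr 7 s) gd (tp w L gd V H rs e0 C2) Λ z) L0 x0 ud) (hx : ud L0 x0)
    (b c : J) :
    T4 (nv.toNV σ) ud (st fun y => Ue w L gd V H rs e0 C2 (jo (σ.symm 0)) Λ y -
      Ue w L gd V H rs e0 C2 (jn (σ.symm 0)) Λ y) (st G1)
      (st fun y => V b Λ y - Ue w L gd V H rs e0 C2 b Λ y)
      (st fun y => V c Λ y - Ue w L gd V H rs e0 C2 c Λ y) ≤
      numL4 C2 Cm C1 Cg e0 E τ CP Pm Q1 cE n * cd (gr 7 s) L0 x0 := by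
  have hC10 : 0 < C1 := lt_of_lt_of_le (by positivity) hC1
  have hk1 : 0 < K1 2 Cg := lt_of_lt_of_le one_pos (K1_ge (by norm_num) hCg)
  have hee : ∀ i, 0 < ee 2 Cg τ E i := fun i => ee_pos (by norm_num) hCg hτ hE i
  have hX : ∀ j, En (gr 7 s) ud (fun y => V j Λ y - Ue w L gd V H rs e0 C2 j Λ y) E := fun j =>
    En.sub_rgn hR (En.mono (en_sub_Ue hP hΛ j (hM j) hC (Vale.Agent.P141.PL.H855.cd_gr_succ s)
      he0.le hC2 z) hE0)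
  have hsz : 0 ≤ szX C2 Cm e0 := by unfold szX; positivity
  have hrn : 0 ≤ CP * (2 * szX C2 Cm e0 * (68 * √C1) * (68 ^ 2 * K1 2 Cg)) / 128 := by positivity
  refine rec_num_end (S := fun i j => R i (sl2 σ j)) (w := fun i j => wR i (sl2 σ j))
    (P := st fun u => V (jo (σ.symm 0)) Λ u - V (jn (σ.symm 0)) Λ u) (Cg := Cg)
    (p := fun i => c2 i * √(K1 2 Cg * ee 2 Cg τ E i))
    (q := fun i => c3 i * √(K1 2 Cg * ee 2 Cg τ E i) * (32 * e + 2 * e0))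
    (r := fun i => CP * (2 * szX C2 Cm e0 * (68 * √C1) * (68 ^ 2 * (K1 2 Cg * ee 2 Cg τ E i))) / 128)
    (Qm := Q1 + CP * (2 * szX C2 Cm e0 * (68 * √C1) * (68 ^ 2 * K1 2 Cg)) / 128)
    hCg (fun i hi j => hMR i hi _) hτ hτ1 hE hPm0 (by positivity)
    (fun i hi => mul_nonneg (hc2 i hi) (Real.sqrt_nonneg _))
    (fun i hi => mul_nonneg (mul_nonneg (hc3 i hi) (Real.sqrt_nonneg _)) (by positivity))
    (fun i _ => by have := hee i; positivity) hPm (fun i hi => ?_)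
    (fun i hi => rnd_payU_st σ hP he0 hΛ hM hC hC2 jo jn hF hC10
      (mul_pos hk1 (hee i)) (hc3 i hi) hb hGe hGu h1e h1u (H2 i hi) (H3o i hi) (H3n i hi))
    hCP hb (by positivity) hC10
    (fun L1 x1 ud1 hR1 _ => slot_GPs hP he0 hΛ hM hC hC2 _ _ hR1) h1e (fun K hK1 hK2 => ?_)
    hR hx (hX b) (hX c)
  · have h1 := hQ1 i hi
    have h2 : CP * (2 * szX C2 Cm e0 * (68 * √C1) * (68 ^ 2 * (K1 2 Cg * ee 2 Cg τ E i))) / 128 =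
        CP * (2 * szX C2 Cm e0 * (68 * √C1) * (68 ^ 2 * K1 2 Cg)) / 128 * ee 2 Cg τ E i := by ring
    rw [h2, add_mul]
    linarith
  · exact endHyp_of_stm (hEnd K hK1 hK2) σ (fun _ _ h => h)
      (fun k y h => h.2.1.trans hΛ) fun Λ' x' ud' hR' hx' =>
      endIn_win hP he0.le hΛ hM hC hC2 jo jn (σ.symm 0) (σ.symm 1) hF hC1 hGe hGu h1e h1u hR' hx'

end

end Vale.Agent.P141.H501
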