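import Vale.Agent.P141.H750.StageYG

/-!
# P141, line (A): the raw stage with slack `√(e₂ / h)` below `e₂`

`stageYS` : `H750.NG.stageYG` with the slack in the crude pair sums.
-/

namespace Vale.Agent.P141.H501.StageY

open Finset Matrix Vale.Agent.P075 Vale.Agent.P141.PL Vale.Agent.P141.PL.H588
open Vale.Agent.P141.PL.H804 Vale.Agent.P141.H958 Vale.Agent.P141.H609 Vale.Agent.P141.H581
open Vale.Agent.P141.H750.NG

noncomputable section

theorem sqrt_slack {h e : ℝ} (hh : 0 < h) (he : 0 ≤ e) : h * √(e / h) = √(e * h) := by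
  have e1 : e * h = h ^ 2 * (e / h) := by field_simp
  rw [e1, Real.sqrt_mul (by positivity), Real.sqrt_sq hh.le]

theorem sqrt_top {x e : ℝ} (he : 0 ≤ e) (hx : x ≤ e) : √(e * x) ≤ e := by
  have h1 := Real.sqrt_le_sqrt (mul_le_mul_of_nonneg_left hx he)
  rwa [Real.sqrt_mul_self he] at h1

theorem sq_half {τ y : ℝ} (hτ : 0 ≤ τ) (hy : 0 ≤ y) : √(τ * (y / 2)) ≤ 5 / 7 * √(τ * y) := by
  have e : (5 / 7 : ℝ) * √(τ * y) = √((5 / 7) ^ 2 * (τ * y)) := by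
    rw [Real.sqrt_mul (by positivity : (0 : ℝ) ≤ (5 / 7) ^ 2) (τ * y), Real.sqrt_sq (by norm_num)]
  rw [e]
  refine Real.sqrt_le_sqrt ?_
  have := mul_nonneg hτ hy
  nlinarith

theorem lev_sqrt_succ {x τ : ℝ} (hx : 0 ≤ x) (hτ : 0 ≤ τ) (L : ℕ) : ∀ a : ℕ,
    ∑ j ∈ range L, √(τ * (x / 2 ^ ((a + 1 + j) - 1))) ≤ 7 / 2 * √(τ * (x / 2 ^ ((a + 1) - 1))) := by
  induction L with
  | zero =>
    intro a
    simp
  | succ L ih =>
    intro a
    rw [sum_range_succ', add_zero]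
    have h1 := ih (a + 1)
    have e : ∑ j ∈ range L, √(τ * (x / 2 ^ ((a + 1 + (j + 1)) - 1))) =
        ∑ j ∈ range L, √(τ * (x / 2 ^ ((a + 1 + 1 + j) - 1))) :=
      sum_congr rfl fun j _ => by rw [show a + 1 + (j + 1) = a + 1 + 1 + j by ring]
    rw [e]
    have e2 : x / 2 ^ ((a + 1 + 1) - 1) = x / 2 ^ ((a + 1) - 1) / 2 := by
      rw [Nat.add_sub_cancel, Nat.add_sub_cancel, pow_succ, div_div]
    rw [e2] at h1
    have h2 := sq_half hτ (by positivity : 0 ≤ x / 2 ^ ((a + 1) - 1))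
    linarith

theorem lev_sqrt {x τ : ℝ} (hx : 0 ≤ x) (hτ : 0 ≤ τ) (a L : ℕ) :
    ∑ j ∈ range L, √(τ * (x / 2 ^ ((a + j) - 1))) ≤ 9 / 2 * √(τ * (x / 2 ^ (a - 1))) := by
  cases a with
  | succ a =>
    refine (lev_sqrt_succ hx hτ L a).trans ?_
    have := Real.sqrt_nonneg (τ * (x / 2 ^ ((a + 1) - 1)))
    linarith
  | zero =>
    cases L with
    | zero =>
      simp only [range_zero, sum_empty]
      positivity
    | succ L =>
      rw [sum_range_succ']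
      have h1 := lev_sqrt_succ hx hτ L 0
      have h3 : ∑ j ∈ range L, √(τ * (x / 2 ^ ((0 + (j + 1)) - 1))) =
          ∑ j ∈ range L, √(τ * (x / 2 ^ ((0 + 1 + j) - 1))) :=
        sum_congr rfl fun j _ => by rw [show 0 + (j + 1) = 0 + 1 + j by ring]
      rw [h3]
      simp only [zero_add, Nat.sub_self, pow_zero, div_one, Nat.zero_sub, add_zero] at *
      linarith

variable {ι : ℕ → Type} [∀ k, Fintype (ι k)] [∀ k, DecidableEq (ι k)] {X : Type*}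
  {hh : ∀ k, Matrix (ι k) (ι k) ℝ} {I : Finset X} {N : ℕ} {s : X → ℕ → Finset Pt} {τ cC : ℝ}
  {FA FB FC : X → NMg ι}

/-- **The stage sum of a family**, slack below `e₂`: raw partners for the third function at the levels `g .. cC`,
natural pair sum with the low first function at the levels `e₂ .. g`, crude pair sums below
`e₂`. -/
theorem stageYS (hs : ∀ k, (hh k)ᵀ = hh k) (hq : ∀ k, hh k * hh k = 1) (hτ : 0 < τ) (hC : 0 < cC)
    (capA : ∀ i ∈ I, ∀ k ∈ Icc 1 N, ∀ m ∈ s i k,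
      (1 - gramC ((τ ^ 2)⁻¹ * (4 ^ k)⁻¹) (FA i k m)).PosSemidef)
    (capB : ∀ i ∈ I, ∀ k ∈ Icc 1 N, ∀ m ∈ s i k,
      (1 - gramC ((τ ^ 2)⁻¹ * (4 ^ k)⁻¹) (FB i k m)).PosSemidef)
    (capC : ∀ i ∈ I, ∀ k ∈ Icc 1 N, ∀ m ∈ s i k,
      (1 - gramC ((cC ^ 2)⁻¹ * (4 ^ k)⁻¹) (FC i k m)).PosSemidef)
    {P₀ P₁ QA QB Z κ' g σ e₂ : ℝ} (hP₀ : 0 ≤ P₀) (hQB0 : 0 ≤ QB)
    (hZ0 : 0 ≤ Z) (hκ : 0 ≤ κ') {D L₀ L₁ : ℕ}
    (hDσ : τ / 2 ^ (D - 1) ≤ σ) (hσ : σ ≤ e₂) (hL₀ : cC / 2 ^ (L₀ - 1) ≤ g)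
    (hL₁ : cC / 2 ^ (L₁ - 1) ≤ e₂)
    (hAB : ∀ h, 0 < h → h ≤ τ → RXg hh I N s h h FA FB ≤ P₀ * h ^ 2)
    (hT : ∀ x, g ≤ x → x ≤ cC → √(RXg hh I N s τ x FB FC * RXg hh I N s x τ FC FA) ≤ κ' * x)
    (hQA : RXg hh I N s g τ FC FA ≤ QA) (hQB : RXg hh I N s τ g FB FC ≤ QB)
    (hCA : ∀ x, e₂ ≤ x → x ≤ g → RXg hh I N s x σ FC FA ≤ P₁ * x ^ 2)
    (hZB : ∀ h, 0 < h → h ≤ e₂ → RXg hh I N s h h FB FC ≤ Z * (h ^ 2 * √(e₂ / h)))
    (hZA : ∀ h, 0 < h → h ≤ e₂ → RXg hh I N s h h FC FA ≤ Z * (h ^ 2 * √(e₂ / h))) :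
    UXg hh I N s τ τ cC FA FB FC 0 0 0 ≤ 6 * κ' * L₀ + 6 * D * (√(P₀ * QA) + √(P₀ * QB)) +
      6 * L₁ * √(P₁ * QB) + 81 * (P₀ + Z) * e₂ := by
  classical
  have lp : ∀ a : ℕ, 0 < τ / 2 ^ (a - 1) := fun a => by positivity
  have lc : ∀ e : ℕ, 0 < cC / 2 ^ (e - 1) := fun e => by positivity
  have ll : ∀ a : ℕ, τ / 2 ^ (a - 1) ≤ τ := fun a => div_le_self hτ.le (one_le_pow₀ (by norm_num))
  have mono : ∀ {x : ℝ}, 0 ≤ x → ∀ {i j : ℕ}, i ≤ j → x / 2 ^ (j - 1) ≤ x / 2 ^ (i - 1) := by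
    intro x hx i j hij
    exact div_le_div_of_nonneg_left hx (by positivity)
      (pow_le_pow_right₀ (by norm_num) (by omega))
  -- the three indices
  have hex : ∃ e : ℕ, cC / 2 ^ (e - 1) ≤ g := ⟨L₀, hL₀⟩
  set E := Nat.find hex with hE
  have hE1 : cC / 2 ^ (E - 1) ≤ g := Nat.find_spec hex
  have hE2 : E ≤ L₀ := Nat.find_min' hex hL₀
  have hE3 : ∀ e < E, g < cC / 2 ^ (e - 1) := fun e he => not_le.1 (Nat.find_min hex he)
  have hex' : ∃ e : ℕ, cC / 2 ^ (e - 1) ≤ e₂ := ⟨L₁, hL₁⟩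
  set E₁ := Nat.find hex' with hE₁
  have hF1 : cC / 2 ^ (E₁ - 1) ≤ e₂ := Nat.find_spec hex'
  have hF2 : E₁ ≤ L₁ := Nat.find_min' hex' hL₁
  have hF3 : ∀ e < E₁, e₂ < cC / 2 ^ (e - 1) := fun e he => not_le.1 (Nat.find_min hex' he)
  set E' := max E E₁ with hE'
  have hxE' : cC / 2 ^ (E' - 1) ≤ e₂ := (mono hC.le (le_max_right E E₁)).trans hF1
  have hxD : τ / 2 ^ (D - 1) ≤ e₂ := hDσ.trans hσ
  -- part 1
  have q1 := sched1 (f := UXg hh I N s τ τ cC FA FB FC) (κ := 6 * κ') (E := E) (fun e he => by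
    have h := UXg_C hs hq hτ hC capA capB capC 0 0 e
    simp only [Nat.zero_sub, pow_zero, div_one] at h
    refine h.trans (add_le_add_right (mul_le_mul_of_nonneg_left ?_ (by norm_num)) _)
    have pe := lc e
    have h2 := mul_le_mul_of_nonneg_left
      (hT _ (hE3 e he).le (div_le_self hC.le (one_le_pow₀ (by norm_num)))) (inv_nonneg.mpr pe.le)
    refine h2.trans (le_of_eq ?_)
    field_simp)
  -- part 2
  have key : ∀ {h x y q : ℝ}, 0 < h → 0 ≤ y → x ≤ P₀ * h ^ 2 → y ≤ q →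
      h⁻¹ * √(x * y) ≤ √(P₀ * q) := by
    intro h x y q hh hy hx hyq
    have h1 : x * y ≤ P₀ * h ^ 2 * q := (mul_le_mul_of_nonneg_right hx hy).trans
      (mul_le_mul_of_nonneg_left hyq (by positivity))
    refine (mul_le_mul_of_nonneg_left (Real.sqrt_le_sqrt h1) (by positivity)).trans (le_of_eq ?_)
    have hq : 0 ≤ q := hy.trans hyq
    rw [← Real.sqrt_sq (inv_nonneg.mpr hh.le), ← Real.sqrt_mul (by positivity)]
    congr 1
    field_simp
  have q2 := sched2 (f := UXg hh I N s τ τ cC FA FB FC) (κA := 6 * √(P₀ * QA)) (κB := 6 * √(P₀ * QB))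
    (D := D) (E := E)
    (fun j _ => by
      refine (UXg_A hs hq hτ hC capA capB capC j j E).trans ?_
      refine add_le_add_right (mul_le_mul_of_nonneg_left ?_ (by norm_num)) _
      rw [mul_comm (RXg hh I N s (cC / 2 ^ (E - 1)) (τ / 2 ^ (j - 1)) FC FA)]
      exact key (lp j) (RXg_nonneg hs) (hAB _ (lp j) (ll j))
        ((RXg_mono hs (lc E) (lp j) hE1 (ll j)).trans hQA))
    (fun j _ => by
      refine (UXg_B hs hq hτ hC capA capB capC (j + 1) j E).trans ?_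
      refine add_le_add_right (mul_le_mul_of_nonneg_left ?_ (by norm_num)) _
      refine key (lp j) (RXg_nonneg hs) ?_ ((RXg_mono hs (lp j) (lc E) (ll j) hE1).trans hQB)
      exact (RXg_mono hs (lp (j + 1)) (lp j) (mono hτ.le (Nat.le_succ j)) le_rfl).trans
        (hAB _ (lp j) (ll j)))
  -- part 3
  have q3 := sched4 (f := UXg hh I N s τ τ cC FA FB FC) (κ := 6 * √(P₁ * QB)) (D := D)
    (le_max_left E E₁) (fun e he he' => by
      have hee : e < E₁ := by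
        rcases lt_max_iff.1 he' with h | h
        · omega
        · exact h
      have l1 := (hF3 e hee).le
      have l2 : cC / 2 ^ (e - 1) ≤ g := (mono hC.le he).trans hE1
      refine (UXg_C hs hq hτ hC capA capB capC D D e).trans ?_
      refine add_le_add_right (mul_le_mul_of_nonneg_left ?_ (by norm_num)) _
      have pe := lc e
      have a1 : RXg hh I N s (τ / 2 ^ (D - 1)) (cC / 2 ^ (e - 1)) FB FC ≤ QB :=
        (RXg_mono hs (lp D) pe (ll D) l2).trans hQB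
      have a2 : RXg hh I N s (cC / 2 ^ (e - 1)) (τ / 2 ^ (D - 1)) FC FA ≤
          P₁ * (cC / 2 ^ (e - 1)) ^ 2 := (RXg_mono hs pe (lp D) le_rfl hDσ).trans (hCA _ l1 l2)
      have a3 := mul_le_mul a1 a2 (RXg_nonneg hs) hQB0
      refine (mul_le_mul_of_nonneg_left (Real.sqrt_le_sqrt a3) (by positivity)).trans
        (le_of_eq ?_)
      set xe := cC / 2 ^ (e - 1)
      rw [← Real.sqrt_sq (inv_nonneg.mpr pe.le), ← Real.sqrt_mul (by positivity)]
      congr 1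
      field_simp)
  -- part 4
  obtain ⟨K, hK⟩ := UXg_tail hs hq hτ hC capA capB capC
  set κ := 6 * (P₀ + Z) with hκd
  have κ0 : 0 ≤ κ := by positivity
  have he₂ : 0 < e₂ := lt_of_lt_of_le (lc E₁) hF1
  have key2 : ∀ {h x y p q : ℝ}, 0 < h → 0 ≤ x → 0 ≤ y → x ≤ p * (h ^ 2 * √(e₂ / h)) →
      y ≤ q * (h ^ 2 * √(e₂ / h)) →
      0 ≤ p → 0 ≤ q → p ≤ P₀ + Z → q ≤ P₀ + Z → 6 * (h⁻¹ * √(x * y)) ≤ κ * √(e₂ * h) := by
    intro h x y p q hh hx0 hy0 hx hy hp0 hq0 hp hq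
    have hw : 0 ≤ h ^ 2 * √(e₂ / h) := by positivity
    have h1 : x * y ≤ ((P₀ + Z) * (h ^ 2 * √(e₂ / h))) ^ 2 := by
      have b1 : x ≤ (P₀ + Z) * (h ^ 2 * √(e₂ / h)) := hx.trans (mul_le_mul_of_nonneg_right hp hw)
      have b2 : y ≤ (P₀ + Z) * (h ^ 2 * √(e₂ / h)) := hy.trans (mul_le_mul_of_nonneg_right hq hw)
      rw [pow_two ((P₀ + Z) * (h ^ 2 * √(e₂ / h)))]
      exact mul_le_mul b1 b2 hy0 (by positivity)
    have h2 : √(x * y) ≤ (P₀ + Z) * (h ^ 2 * √(e₂ / h)) := by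
      rw [← Real.sqrt_sq (by positivity : 0 ≤ (P₀ + Z) * (h ^ 2 * √(e₂ / h)))]
      exact Real.sqrt_le_sqrt h1
    have h3 := mul_le_mul_of_nonneg_left h2 (inv_nonneg.mpr hh.le)
    refine (mul_le_mul_of_nonneg_left h3 (by norm_num)).trans (le_of_eq ?_)
    rw [hκd, ← sqrt_slack hh he₂.le]
    field_simp
  have slk : ∀ {h : ℝ}, 0 < h → h ≤ e₂ → P₀ * h ^ 2 ≤ P₀ * (h ^ 2 * √(e₂ / h)) := by
    intro h hh hle
    refine mul_le_mul_of_nonneg_left ?_ hP₀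
    have h1 : 1 ≤ √(e₂ / h) := by
      rw [Real.one_le_sqrt]
      exact (one_le_div hh).2 hle
    have h2 : 0 ≤ h ^ 2 := by positivity
    nlinarith
  have pz1 : P₀ ≤ P₀ + Z := by linarith
  have pz2 : Z ≤ P₀ + Z := by linarith
  have q4 := ind3 (f := UXg hh I N s τ τ cC FA FB FC) (K := K)
    (κA := fun a => κ * √(e₂ * (τ / 2 ^ (a - 1)))) (κB := fun b => κ * √(e₂ * (τ / 2 ^ (b - 1))))
    (κC := fun e => κ * √(e₂ * (cC / 2 ^ (e - 1)))) (fun j => by positivity)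
    (fun j => by positivity)
    (fun j => by positivity) hK (a₀ := D) (b₀ := D) (e₀ := E') (fun a b e ha hb he => ?_)
    (SA := 9 / 2 * κ * e₂) (SB := 9 / 2 * κ * e₂) (SC := 9 / 2 * κ * e₂)
    (fun L => ?_) (fun L => ?_) (fun L => ?_)
  · have f1 : ((E' - E : ℕ) : ℝ) ≤ L₁ := by
      have : E' - E ≤ L₁ := by
        rcases le_total E E₁ with h | h
        · rw [hE', max_eq_right h]; omega
        · rw [hE', max_eq_left h]; omega
      exact_mod_cast this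
    have f2 : 6 * √(P₁ * QB) * ((E' - E : ℕ) : ℝ) ≤ 6 * √(P₁ * QB) * L₁ :=
      mul_le_mul_of_nonneg_left f1 (by positivity)
    have f3 : 6 * κ' * (E : ℝ) ≤ 6 * κ' * L₀ :=
      mul_le_mul_of_nonneg_left (by exact_mod_cast hE2) (by positivity)
    have f4 : 9 / 2 * κ * e₂ + 9 / 2 * κ * e₂ + 9 / 2 * κ * e₂ = 81 * (P₀ + Z) * e₂ := by
      rw [hκd]; ring
    rw [f4] at q4
    linarith
  · have la : τ / 2 ^ (a - 1) ≤ e₂ := (mono hτ.le ha).trans hxD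
    have lb : τ / 2 ^ (b - 1) ≤ e₂ := (mono hτ.le hb).trans hxD
    have le : cC / 2 ^ (e - 1) ≤ e₂ := (mono hC.le he).trans hxE'
    have pa := lp a
    have pb := lp b
    have pe := lc e
    rcases le_total (τ / 2 ^ (b - 1)) (τ / 2 ^ (a - 1)) with h1 | h1
    · rcases le_total (cC / 2 ^ (e - 1)) (τ / 2 ^ (a - 1)) with h2 | h2
      · refine Or.inl ((UXg_A hs hq hτ hC capA capB capC a b e).trans (add_le_add_right ?_ _))
        exact key2 pa (RXg_nonneg hs) (RXg_nonneg hs) ((RXg_mono hs pe pa h2 le_rfl).trans (hZA _ pa la))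
          ((RXg_mono hs pa pb le_rfl h1).trans ((hAB _ pa (ll a)).trans (slk pa la))) hZ0 hP₀ pz2 pz1
      · refine Or.inr (Or.inr ((UXg_C hs hq hτ hC capA capB capC a b e).trans (add_le_add_right ?_ _)))
        exact key2 pe (RXg_nonneg hs) (RXg_nonneg hs)
          ((RXg_mono hs pb pe (h1.trans h2) le_rfl).trans (hZB _ pe le))
          ((RXg_mono hs pe pa le_rfl h2).trans (hZA _ pe le)) hZ0 hZ0 pz2 pz2
    · rcases le_total (cC / 2 ^ (e - 1)) (τ / 2 ^ (b - 1)) with h2 | h2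
      · refine Or.inr (Or.inl ((UXg_B hs hq hτ hC capA capB capC a b e).trans (add_le_add_right ?_ _)))
        exact key2 pb (RXg_nonneg hs) (RXg_nonneg hs) ((RXg_mono hs pa pb h1 le_rfl).trans ((hAB _ pb (ll b)).trans (slk pb lb)))
          ((RXg_mono hs pb pe le_rfl h2).trans (hZB _ pb lb)) hP₀ hZ0 pz1 pz2
      · refine Or.inr (Or.inr ((UXg_C hs hq hτ hC capA capB capC a b e).trans (add_le_add_right ?_ _)))
        exact key2 pe (RXg_nonneg hs) (RXg_nonneg hs) ((RXg_mono hs pb pe h2 le_rfl).trans (hZB _ pe le))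
          ((RXg_mono hs pe pa le_rfl (h1.trans h2)).trans (hZA _ pe le)) hZ0 hZ0 pz2 pz2
  · rw [← mul_sum]
    have h := mul_le_mul_of_nonneg_left ((lev_sqrt hτ.le he₂.le D L).trans
      (mul_le_mul_of_nonneg_left (sqrt_top he₂.le hxD) (by norm_num))) κ0
    linarith
  · rw [← mul_sum]
    have h := mul_le_mul_of_nonneg_left ((lev_sqrt hτ.le he₂.le D L).trans
      (mul_le_mul_of_nonneg_left (sqrt_top he₂.le hxD) (by norm_num))) κ0
    linarith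
  · rw [← mul_sum]
    have h := mul_le_mul_of_nonneg_left ((lev_sqrt hC.le he₂.le E' L).trans
      (mul_le_mul_of_nonneg_left (sqrt_top he₂.le hxE') (by norm_num))) κ0
    linarith

end

end Vale.Agent.P141.H501.StageY
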