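import Vale.Agent.P141.H501.StageM
import Vale.Agent.P141.H501.StageY

/-!
# P141, line (A): the raw stage over the `x0`, letters of the skeleton of the increasing part

`stageR` : the sum of the node forms of a family, from the pair sums with raw partners (the six
hypotheses of `H581.stageY`, slack `√(e₂ / h)` in the crude ones), any labels, functions depending
on the node; `TTf_leR` : the part with the slot `Th`.
-/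

namespace Vale.Agent.P141.H501.StageM

open Finset Matrix
open Vale.Agent.P075
open Vale.Agent.P141.PL (Pt iv hs ix mem_iv ix_ix)
open Vale.Agent.P141.PL.H588 (Xg hd)
open Vale.Agent.P141.H103 (QW)
open Vale.Agent.P141.H677 (nf3)
open Vale.Agent.P141.H408 (QL hdL rAB rBC rCA)
open Vale.Agent.P141.H750.NG (RPg RXg UXg UNg NMg)

noncomputable section

open scoped Classical

variable {κ : Type} [Fintype κ] [DecidableEq κ] {J : Type*} {X : Finset J} {K : ℕ}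
  {s : J → ℕ → Finset Pt} {A : J → ℕ → Pt → ℤ → ℤ → ℝ} {B C : J → ℕ → Pt → ℤ → ℤ → κ → ℝ}

theorem RX_AB (x y : ℝ) : RXg (hdL (Option κ)) X K s x y (fun i k m => pA κ (A i k m) k m)
    (fun i k m => pB (B i k m) k m) =
    ∑ i ∈ X, ∑ k ∈ Icc 1 K, ∑ m ∈ s i k, rAB (A i k m) (B i k m) k m x y := by
  unfold RXg RPg
  refine Finset.sum_congr rfl fun i _ => Finset.sum_congr rfl fun k _ =>
    Finset.sum_congr rfl fun m _ => ?_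
  rw [rAB_M2]

theorem RX_BC (x y : ℝ) : RXg (hdL (Option κ)) X K s x y (fun i k m => pB (B i k m) k m)
    (fun i k m => pC (C i k m) k m) =
    ∑ i ∈ X, ∑ k ∈ Icc 1 K, ∑ m ∈ s i k, rBC (B i k m) (C i k m) k m x y := by
  unfold RXg RPg
  refine Finset.sum_congr rfl fun i _ => Finset.sum_congr rfl fun k _ =>
    Finset.sum_congr rfl fun m _ => ?_
  rw [rBC_M2]

theorem RX_CA (x y : ℝ) : RXg (hdL (Option κ)) X K s x y (fun i k m => pC (C i k m) k m)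
    (fun i k m => pA κ (A i k m) k m) =
    ∑ i ∈ X, ∑ k ∈ Icc 1 K, ∑ m ∈ s i k, rCA (C i k m) (A i k m) k m x y := by
  unfold RXg RPg
  refine Finset.sum_congr rfl fun i _ => Finset.sum_congr rfl fun k _ =>
    Finset.sum_congr rfl fun m _ => ?_
  rw [rCA_M2]

theorem UX_nf3 {cA cB cC : ℝ} :
    UXg (hdL (Option κ)) X K s cA cB cC (fun i k m => pA κ (A i k m) k m)
      (fun i k m => pB (B i k m) k m) (fun i k m => pC (C i k m) k m) 0 0 0 =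
    ∑ i ∈ X, ∑ k ∈ Icc 1 K, ∑ m ∈ s i k, |nf3 (A i k m) (B i k m) (C i k m) k m| := by
  unfold UXg UNg
  refine Finset.sum_congr rfl fun i _ => Finset.sum_congr rfl fun k hk =>
    Finset.sum_congr rfl fun m _ => ?_
  rw [nf3_T3 (mem_Icc.1 hk).1]
  rfl

/-- **The raw stage over the `x0`.** -/
theorem stageR {τ cC P₀ P₁ QA QB Z κ' g σ e₂ : ℝ} (hτ : 0 < τ) (hC : 0 < cC)
    (capA : ∀ i ∈ X, ∀ k ∈ Icc 1 K, ∀ m ∈ s i k,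
      ((τ ^ 2) • 1 - Xg k k (A i k m) m.1 m.2.1).PosSemidef)
    (capB : ∀ i ∈ X, ∀ k ∈ Icc 1 K, ∀ m ∈ s i k,
      ((τ ^ 2) • 1 - QW k k (B i k m) (fun _ => 1) m.2.2 m.2.1).PosSemidef)
    (capC : ∀ i ∈ X, ∀ k ∈ Icc 1 K, ∀ m ∈ s i k,
      ((cC ^ 2) • 1 - QW k k (fun x z => C i k m z x) (fun _ => 1) m.2.2 m.1).PosSemidef)
    (hP₀ : 0 ≤ P₀) (hQB0 : 0 ≤ QB) (hZ0 : 0 ≤ Z) (hκ : 0 ≤ κ') {D L₀ L₁ : ℕ}
    (hDσ : τ / 2 ^ (D - 1) ≤ σ) (hσ : σ ≤ e₂) (hL₀ : cC / 2 ^ (L₀ - 1) ≤ g)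
    (hL₁ : cC / 2 ^ (L₁ - 1) ≤ e₂)
    (hAB : ∀ h, 0 < h → h ≤ τ → ∑ i ∈ X, ∑ k ∈ Icc 1 K, ∑ m ∈ s i k,
      rAB (A i k m) (B i k m) k m h h ≤ P₀ * h ^ 2)
    (hT : ∀ x, g ≤ x → x ≤ cC → √((∑ i ∈ X, ∑ k ∈ Icc 1 K, ∑ m ∈ s i k,
      rBC (B i k m) (C i k m) k m τ x) * ∑ i ∈ X, ∑ k ∈ Icc 1 K, ∑ m ∈ s i k,
      rCA (C i k m) (A i k m) k m x τ) ≤ κ' * x)
    (hQA : ∑ i ∈ X, ∑ k ∈ Icc 1 K, ∑ m ∈ s i k, rCA (C i k m) (A i k m) k m g τ ≤ QA)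
    (hQB : ∑ i ∈ X, ∑ k ∈ Icc 1 K, ∑ m ∈ s i k, rBC (B i k m) (C i k m) k m τ g ≤ QB)
    (hCA : ∀ x, e₂ ≤ x → x ≤ g → ∑ i ∈ X, ∑ k ∈ Icc 1 K, ∑ m ∈ s i k,
      rCA (C i k m) (A i k m) k m x σ ≤ P₁ * x ^ 2)
    (hZB : ∀ h, 0 < h → h ≤ e₂ → ∑ i ∈ X, ∑ k ∈ Icc 1 K, ∑ m ∈ s i k,
      rBC (B i k m) (C i k m) k m h h ≤ Z * (h ^ 2 * √(e₂ / h)))
    (hZA : ∀ h, 0 < h → h ≤ e₂ → ∑ i ∈ X, ∑ k ∈ Icc 1 K, ∑ m ∈ s i k,
      rCA (C i k m) (A i k m) k m h h ≤ Z * (h ^ 2 * √(e₂ / h))) :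
    ∑ i ∈ X, ∑ k ∈ Icc 1 K, ∑ m ∈ s i k, |nf3 (A i k m) (B i k m) (C i k m) k m| ≤
      6 * κ' * L₀ + 6 * D * (√(P₀ * QA) + √(P₀ * QB)) + 6 * L₁ * √(P₁ * QB) +
        81 * (P₀ + Z) * e₂ := by
  rw [← UX_nf3 (cA := τ) (cB := τ) (cC := cC)]
  refine StageY.stageYS (σ := σ) (g := g) (D := D) (L₀ := L₀) (L₁ := L₁)
    (fun k => hdL_symm k) (fun k => hdL_sq k) hτ hC
    (fun i hi k hk m hm => capA_p hτ (capA i hi k hk m hm))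
    (fun i hi k hk m hm => capB_p hτ (capB i hi k hk m hm))
    (fun i hi k hk m hm => capC_p hC (capC i hi k hk m hm)) hP₀ hQB0 hZ0 hκ hDσ hσ hL₀ hL₁
    (fun h h0 h1 => ?_) (fun x h0 h1 => ?_) ?_ ?_ (fun x h0 h1 => ?_)
    (fun h h0 h1 => ?_) (fun h h0 h1 => ?_)
  · rw [RX_AB]
    exact hAB h h0 h1
  · rw [RX_BC, RX_CA]
    exact hT x h0 h1
  · rw [RX_CA]
    exact hQA
  · rw [RX_BC]
    exact hQB
  · rw [RX_CA]
    exact hCA x h0 h1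
  · rw [RX_BC]
    exact hZB h h0 h1
  · rw [RX_CA]
    exact hZA h h0 h1

/-- **The raw stage of the skeleton.** -/
theorem stageYC : H408.StageYC 81 := by
  intro κ _ _ J X K s A B C τ cC P₀ P₁ QA QB Z κ' g σ e₂ D L₀ L₁ hτ hC hP₀ hP₁ hQB0 hZ0 hκ he₂
    hDσ hσ hL₀ hL₁ capA capB capC hAB hT hQA hQB hCA hZB hZA
  have h := stageR (X := X) (s := s) (A := A) (B := B) (C := C) hτ hC capA capB capC hP₀ hQB0 hZ0
    hκ hDσ hσ hL₀ hL₁ hAB hT hQA hQB hCA hZB hZA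
  have n1 : 0 ≤ κ' * (L₀ : ℝ) := mul_nonneg hκ (Nat.cast_nonneg _)
  have n2 : 0 ≤ (D : ℝ) * (√(P₀ * QA) + √(P₀ * QB)) :=
    mul_nonneg (Nat.cast_nonneg _) (add_nonneg (Real.sqrt_nonneg _) (Real.sqrt_nonneg _))
  have n3 : 0 ≤ (L₁ : ℝ) * √(P₁ * QB) := mul_nonneg (Nat.cast_nonneg _) (Real.sqrt_nonneg _)
  linarith

theorem stageY1 : H408.StageY1 := ⟨81, by norm_num, stageYC⟩

/-! ### In the letters of the increasing part -/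

section fam

open Vale.Agent.P141.H408 (SN TTf Bt Ct TIf SN_sigma)
open Vale.Agent.P141.H677 (KT GT sN rt tr_T)
open Vale.Agent.P141.H677.Sk (FamA FamV FunF)

theorem nf3_congr_dot {ι ι' : Type*} [Fintype ι] [Fintype ι'] {A : ℤ → ℤ → ℝ}
    {b C : ℤ → ℤ → ι → ℝ} {b' C' : ℤ → ℤ → ι' → ℝ} {k : ℕ} {m : Pt}
    (h : ∀ z ∈ iv k m.1, ∀ x y, b' x y ⬝ᵥ C' z x = b x y ⬝ᵥ C z x) :
    nf3 A b' C' k m = nf3 A b C k m := by
  unfold nf3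
  congr 1
  refine Finset.sum_congr rfl fun z hz => Finset.sum_congr rfl fun x _ =>
    Finset.sum_congr rfl fun y _ => ?_
  rw [h z hz]

variable {ι : Type} [Fintype ι] [DecidableEq ι]

/-- **The part with the slot `Th` by the raw stage**, any factorisation `B'`, `C'` of the slot. -/
theorem TTf_leR {Al : ℕ → Pt → Prop} {o : ℤ} {K : ℕ} {M : Pt} {sg : ℕ → Pt → ℝ} {be l : ℝ}
    (hbe : 0 < be) (hl : 0 < l) {u : ℤ → ℤ → ι → ℝ} {A : FamA} {b C : FamV ι}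
    {B' C' : ℤ → ℕ → Pt → ℤ → ℤ → κ → ℝ}
    (hd : ∀ x0 : ℤ, ∀ k ∈ Icc 1 K, ∀ m : Pt, ∀ z ∈ iv k m.1, ∀ x y,
      B' x0 k m x y ⬝ᵥ C' x0 k m z x =
        Bt be l K M.2.1 (KT l u) (o - 2) x0 (b x0 k) k m.1 x y ⬝ᵥ
          Ct be l K M.2.1 (KT l u) (o - 2) x0 (C x0 k) k z x)
    {τ cC P₀ P₁ QA QB Z κ' g σ e₂ : ℝ} (hτ : 0 < τ) (hC : 0 < cC)
    (capA : ∀ x0 : ℤ, ∀ k ∈ Icc 1 K, ∀ m ∈ sN Al o K M x0 k,
      ((τ ^ 2) • 1 - Xg k k (A x0 k) m.1 m.2.1).PosSemidef)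
    (capB : ∀ x0 : ℤ, ∀ k ∈ Icc 1 K, ∀ m ∈ sN Al o K M x0 k,
      ((τ ^ 2) • 1 - QW k k (B' x0 k m) (fun _ => 1) m.2.2 m.2.1).PosSemidef)
    (capC : ∀ x0 : ℤ, ∀ k ∈ Icc 1 K, ∀ m ∈ sN Al o K M x0 k,
      ((cC ^ 2) • 1 - QW k k (fun x z => C' x0 k m z x) (fun _ => 1) m.2.2 m.1).PosSemidef)
    (hP₀ : 0 ≤ P₀) (hQB0 : 0 ≤ QB) (hZ0 : 0 ≤ Z) (hκ : 0 ≤ κ') {D L₀ L₁ : ℕ}
    (hDσ : τ / 2 ^ (D - 1) ≤ σ) (hσ : σ ≤ e₂) (hL₀ : cC / 2 ^ (L₀ - 1) ≤ g)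
    (hL₁ : cC / 2 ^ (L₁ - 1) ≤ e₂)
    (hAB : ∀ h, 0 < h → h ≤ τ → SN Al o K M (fun x0 k m =>
      rAB (A x0 k) (B' x0 k m) k m h h) ≤ P₀ * h ^ 2)
    (hT : ∀ x, g ≤ x → x ≤ cC → √(SN Al o K M (fun x0 k m =>
      rBC (B' x0 k m) (C' x0 k m) k m τ x) * SN Al o K M (fun x0 k m =>
      rCA (C' x0 k m) (A x0 k) k m x τ)) ≤ κ' * x)
    (hQA : SN Al o K M (fun x0 k m => rCA (C' x0 k m) (A x0 k) k m g τ) ≤ QA)
    (hQB : SN Al o K M (fun x0 k m => rBC (B' x0 k m) (C' x0 k m) k m τ g) ≤ QB)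
    (hCA : ∀ x, e₂ ≤ x → x ≤ g → SN Al o K M (fun x0 k m =>
      rCA (C' x0 k m) (A x0 k) k m x σ) ≤ P₁ * x ^ 2)
    (hZB : ∀ h, 0 < h → h ≤ e₂ → SN Al o K M (fun x0 k m =>
      rBC (B' x0 k m) (C' x0 k m) k m h h) ≤ Z * (h ^ 2 * √(e₂ / h)))
    (hZA : ∀ h, 0 < h → h ≤ e₂ → SN Al o K M (fun x0 k m =>
      rCA (C' x0 k m) (A x0 k) k m h h) ≤ Z * (h ^ 2 * √(e₂ / h))) :
    TTf ι Al o K M sg l u A b C ≤ 6 * κ' * L₀ + 6 * D * (√(P₀ * QA) + √(P₀ * QB)) +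
      6 * L₁ * √(P₁ * QB) + 81 * (P₀ + Z) * e₂ := by
  have e : TTf ι Al o K M sg l u A b C = SN Al o K M fun x0 k m =>
      |nf3 (A x0 k) (B' x0 k m) (C' x0 k m) k m| := by
    unfold TTf SN
    refine Finset.sum_congr rfl fun t _ => Finset.sum_congr rfl fun x0 _ =>
      Finset.sum_congr rfl fun k hk => Finset.sum_congr rfl fun m _ => ?_
    exact congrArg abs ((H408.ndT_nf3 hbe (fun x => tr_T hl K u x) (o - 2) x0 (A x0 k) (b x0 k)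
      (C x0 k) (mem_Icc.1 hk).1 m).trans (nf3_congr_dot (hd x0 k hk m)).symm)
  simp only [SN_sigma] at hAB hT hQA hQB hCA hZB hZA
  rw [e, SN_sigma]
  exact stageR (X := (rt M).sigma fun t => iv K t) (s := fun i k => sN Al o K M i.2 k)
    (A := fun i k _ => A i.2 k) (B := fun i k m => B' i.2 k m) (C := fun i k m => C' i.2 k m)
    hτ hC (fun i _ k hk m hm => capA i.2 k hk m hm) (fun i _ k hk m hm => capB i.2 k hk m hm)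
    (fun i _ k hk m hm => capC i.2 k hk m hm) hP₀ hQB0 hZ0 hκ hDσ hσ hL₀ hL₁
    hAB hT hQA hQB hCA hZB hZA

/-- the labels doubled, a multiple of `b` in the second part of the first slot, nothing in the
second part of the second slot -/
theorem dot_elim (B b C : κ → ℝ) :
    (Sum.elim B b : κ ⊕ κ → ℝ) ⬝ᵥ (Sum.elim C (fun _ => 0) : κ ⊕ κ → ℝ) = B ⬝ᵥ C := by
  simp [dotProduct, Fintype.sum_sum_type]

end fam

end

end Vale.Agent.P141.H501.StageM
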