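import Vale.Agent.P141.H8.Lab
import Vale.Agent.P141.H297.Win7

/-!
# P141, line W, module REC, (R2): the births alive above a region

On the cells of a region below the cell `(Λ, z)` the data minus the residual `V Λ` of a path is a
finite combination of atoms, with the coefficients of the local mass `lm Λ z`.  So a bound of the
total for one static atom gives a bound for `F - V Λ` in the slot 3 or 4.
-/

namespace Vale.Agent.P141.H501.Rec

open Finset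
open Vale.Agent.P141.H315 Vale.Agent.P141.PL.H318 Vale.Agent.P141.H347 Vale.Agent.P141.H297
open Vale.Agent.P141.H8

noncomputable section

open scoped Classical

variable {X ι α : Type*} {g : Grid X}

/-- the indices of the births alive at the cell `(k, x)` -/
def idx (S : CSys g ι) (L : ℕ) (H : ℕ → X → ℝ) (rs : ℕ → X → Prop) (k : ℕ) (x : X) :
    Finset (Σ _ : ℕ, ι) :=
  ((Ico k (L + 1)).filter fun j => Alv rs k j x).sigma fun j => (bm S j (H j) (g.cube j x)).support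

theorem mem_idx {S : CSys g ι} {L : ℕ} {H : ℕ → X → ℝ} {rs : ℕ → X → Prop} {k : ℕ} {x : X}
    {q : Σ _ : ℕ, ι} : q ∈ idx S L H rs k x ↔ (k ≤ q.1 ∧ q.1 ≤ L ∧ Alv rs k q.1 x) ∧
      bm S q.1 (H q.1) (g.cube q.1 x) q.2 ≠ 0 := by
  unfold idx
  rw [mem_sigma, mem_filter, mem_Ico, Finsupp.mem_support_iff]
  constructor
  · rintro ⟨⟨⟨h1, h2⟩, h3⟩, h4⟩
    exact ⟨⟨h1, by omega, h3⟩, h4⟩
  · rintro ⟨⟨h1, h2, h3⟩, h4⟩
    exact ⟨⟨⟨h1, by omega⟩, h3⟩, h4⟩

variable {S : CSys g ι} {w : LW S} {L : ℕ} {e : ℝ} {F : X → ℝ} {gd : ℕ → X → Prop}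
  {V H : ℕ → X → ℝ} {rs : ℕ → X → Prop} {lm : ℕ → X → ℝ}

theorem alv_const (hP : Pth w L e F gd V H rs lm) {k : ℕ} {x y : X} (hy : y ∈ g.cube k x) (j : ℕ) :
    Alv rs k j y ↔ Alv rs k j x := by
  unfold Alv
  refine forall_congr' fun i => ?_
  refine imp_congr_right fun h1 => imp_congr_right fun _ => not_congr ?_
  exact hP.rs_const i x y (g.cube_subset h1 (g.mem i x) hy)

/-- **The data minus the residual on the cube `(k, x)` is a combination of the atoms alive.** -/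
theorem sub_eq (hP : Pth w L e F gd V H rs lm) (hgc : ∀ k x y, y ∈ g.cube k x → (gd k y ↔ gd k x))
    (hup : ∀ k < L, ∀ x, gd k x → gd (k + 1) x) {k : ℕ} (hk : k ≤ L) {x : X} (hx : gd k x) {y : X}
    (hy : y ∈ g.cube k x) :
    F y - V k y =
      (∑ q ∈ idx S L H rs k x, bm S q.1 (H q.1) (g.cube q.1 x) q.2 • S.a q.1 q.2) y := by
  rw [alive_sum hP hup hk ((hgc k x y hy).2 hx), ← sum_filter, Finset.sum_apply]
  unfold idx
  rw [sum_sigma]
  have h1 : (Ico k (L + 1)).filter (fun j => Alv rs k j y) =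
      (Ico k (L + 1)).filter fun j => Alv rs k j x :=
    filter_congr fun j _ => alv_const hP hy j
  rw [h1]
  refine sum_congr rfl fun j hj => ?_
  have h2 := mem_Ico.1 (mem_filter.1 hj).1
  rw [birth_sum S j (H j) (g.cube_subset h2.1 (g.mem j x) hy), Finsupp.sum]
  refine sum_congr rfl fun i _ => ?_
  simp [smul_eq_mul]

/-- the local mass is the sum of the coefficients with the densities of the atoms -/
theorem lm_eq (hP : Pth w L e F gd V H rs lm) {k : ℕ} (hk : k ≤ L) {x : X} (hx : gd k x) :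
    lm k x = ∑ q ∈ idx S L H rs k x, |bm S q.1 (H q.1) (g.cube q.1 x) q.2| * w.ω q.1 k x q.2 := by
  rw [hP.lm_eq k hk x hx]
  unfold idx
  rw [sum_sigma, ← sum_filter]
  refine sum_congr ?_ fun j _ => ?_
  · ext j
    rw [mem_filter, mem_filter]
    rfl
  · unfold lden
    rw [Finsupp.sum]

variable {nv : NV g α} {ud gd0 : ℕ → X → Prop}

/-- **(R2), slot 3.** -/
theorem T4_alive3 (hP : Pth w L e F gd V H rs lm)
    (hgc : ∀ k x y, y ∈ g.cube k x → (gd k y ↔ gd k x))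
    (hup : ∀ k < L, ∀ x, gd k x → gd (k + 1) x) {Λ : ℕ} {z : X} (hr : Rgn g gd0 Λ z ud)
    (hΛ : Λ ≤ L) (hz : gd Λ z) {A B D : ℕ → X → ℝ} {p : ℝ}
    (h : ∀ j i, Λ ≤ j → j ≤ L → Alv rs Λ j z → bm S j (H j) (g.cube j z) i ≠ 0 →
      T4 nv ud A B (st (S.a j i)) D ≤ p * w.ω j Λ z i * cd g Λ z) :
    T4 nv ud A B (st fun y => F y - V Λ y) D ≤ p * lm Λ z * cd g Λ z := by
  have h1 : T4 nv ud A B (st fun y => F y - V Λ y) D =
      T4 nv ud A B (st (∑ q ∈ idx S L H rs Λ z,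
        bm S q.1 (H q.1) (g.cube q.1 z) q.2 • S.a q.1 q.2)) D := by
    refine T4_congr fun k y hy v hv => ⟨rfl, rfl, ?_, rfl⟩
    obtain ⟨h2, h3⟩ := hr.bel k y hy
    exact sub_eq hP hgc hup hΛ hz (g.cube_subset h2 h3 hv)
  rw [h1]
  refine (T4_sum3 _ A B D _ _).trans ?_
  rw [lm_eq hP hΛ hz, mul_sum, sum_mul]
  refine sum_le_sum fun q hq => ?_
  obtain ⟨⟨h2, h3, h4⟩, h5⟩ := mem_idx.1 hq
  have h6 := mul_le_mul_of_nonneg_left (h q.1 q.2 h2 h3 h4 h5)
    (abs_nonneg (bm S q.1 (H q.1) (g.cube q.1 z) q.2))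
  refine h6.trans (le_of_eq ?_)
  ring

/-- **(R2), slot 4.** -/
theorem T4_alive4 (hP : Pth w L e F gd V H rs lm)
    (hgc : ∀ k x y, y ∈ g.cube k x → (gd k y ↔ gd k x))
    (hup : ∀ k < L, ∀ x, gd k x → gd (k + 1) x) {Λ : ℕ} {z : X} (hr : Rgn g gd0 Λ z ud)
    (hΛ : Λ ≤ L) (hz : gd Λ z) {A B C : ℕ → X → ℝ} {p : ℝ}
    (h : ∀ j i, Λ ≤ j → j ≤ L → Alv rs Λ j z → bm S j (H j) (g.cube j z) i ≠ 0 →
      T4 nv ud A B C (st (S.a j i)) ≤ p * w.ω j Λ z i * cd g Λ z) :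
    T4 nv ud A B C (st fun y => F y - V Λ y) ≤ p * lm Λ z * cd g Λ z := by
  have h1 : T4 nv ud A B C (st fun y => F y - V Λ y) =
      T4 nv ud A B C (st (∑ q ∈ idx S L H rs Λ z,
        bm S q.1 (H q.1) (g.cube q.1 z) q.2 • S.a q.1 q.2)) := by
    refine T4_congr fun k y hy v hv => ⟨rfl, rfl, rfl, ?_⟩
    obtain ⟨h2, h3⟩ := hr.bel k y hy
    exact sub_eq hP hgc hup hΛ hz (g.cube_subset h2 h3 hv)
  rw [h1]
  refine (T4_sum4 _ A B C _ _).trans ?_
  rw [lm_eq hP hΛ hz, mul_sum, sum_mul]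
  refine sum_le_sum fun q hq => ?_
  obtain ⟨⟨h2, h3, h4⟩, h5⟩ := mem_idx.1 hq
  have h6 := mul_le_mul_of_nonneg_left (h q.1 q.2 h2 h3 h4 h5)
    (abs_nonneg (bm S q.1 (H q.1) (g.cube q.1 z) q.2))
  refine h6.trans (le_of_eq ?_)
  ring

end

end Vale.Agent.P141.H501.Rec
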