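import Vale.Agent.P141.H501.StepOf
import Vale.Agent.P141.H498.EnCF

/-!
# P141, line W, CE: the output of CE from the fourth moments of the centre-free companion

* `CFOut`: one alive cell: a function with bounded energy which is uniform for the total system of
  the level `j` on the cell has fourth moments of gauged slices `≤ C 2 ^ (-(2 + d) j) |a|₂² |a|₄²`;
* `ceOut_of_cf : CFOut → CEOut`, by `H498.costR_cf`.
-/

namespace Vale.Agent.P141.H501

open Finset Function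
open Vale.Agent.P141.H315 (Grid dot)
open Vale.Agent.P141.PL (Pt el fc)
open Vale.Agent.P141.PL.H315 (cube3 Tri iv)
open Vale.Agent.P141.PL.H95 (gr shf)
open Vale.Agent.P141.H347 (cd)
open Vale.Agent.P141.H347.Gs (Ex e2 e2_pos e2_le e2_mul)
open Vale.Agent.P141.H347.Tr (CostR)
open Vale.Agent.P141.H782 (gb LSys LSys.S LSys.w)
open Vale.Agent.P141.H8 (Rgn En Un)
open Vale.Agent.P141.H48 (kl ESl USl prE)
open Vale.Agent.P141.H922 (n2 n4 wP)
open Vale.Agent.P141.H769 (mo4f lft)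
open Vale.Agent.P141.H414 (jf cf)
open Vale.Agent.P141.H444 (TDat.sys alR alv_alR esl_alR usl_of_su SU)
open Vale.Agent.P141.H498 (MSl costR_cf cCF cCF_nonneg)

noncomputable section

open scoped Classical

/-- **One cell**: fourth moments with the number `M` for the functions which are `K`-uniform on the
cell `(k, s)` for the total system of the level `j`, slot `r`. -/
def CFcell (e : Ex) (n : ℕ) (b : Bool) (j : ℕ) (r : Fin 4) (k : ℕ) (s : ℤ) (M : ℝ) : Prop :=
  ∀ F : ℤ → ℝ, dot ((gb n b).cube k s) F F ≤ e.K * cd (gb n b) k s →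
    (∀ m, |dot ((gb n b).cube k s) F (((e.T n).sys.S j b r).a k m)| ≤
      e.K * ((e.T n).sys.S j b r).W k ((gb n b).cube k s) m) →
    ∀ (i : Fin 4) (p : Fin 3), jf i p = r → ∀ (q : Pt) (a : ℤ → ℤ → ℝ),
      mo4f (iv k q.1) (iv k q.2.1) (iv k q.2.2) a (lft (cf i p) ((gb n b).cube k s) F) ≤
        M * (n2 (iv k q.2.1 ×ˢ iv k q.2.2) (fun p => a p.1 p.2) ^ 2 *
          n4 (iv k q.2.1 ×ˢ iv k q.2.2) (fun p => a p.1 p.2) ^ 2)

/-- **The fourth moments of the centre-free companions**, one cell. -/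
def CFOut : Prop := ∃ g c a a' d : ℝ, 0 < g ∧ g ≤ c ∧ c ≤ 1 ∧ 0 ≤ a ∧ 0 ≤ a' ∧ 2 * c < d ∧
  ∀ e : Ex, e.g = g → e.c = c → e.a = a → e.a' = a' → ∃ C : ℝ, 0 ≤ C ∧
    ∀ (n : ℕ) (b : Bool) (j : ℕ), 1 ≤ j → ∀ (r : Fin 4) (k : ℕ) (s : ℤ), 1 ≤ k →
      CFcell e n b j r k s (C * e2 (-(2 + d)) j)

theorem e2_rpow (x y : ℝ) (j : ℕ) : e2 x j ^ y = e2 (x * y) j := by
  unfold e2
  rw [← Real.rpow_mul two_pos.le]
  congr 1
  ring

/-- **The output of CE from the fourth moments.** -/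
theorem ceOut_of_cf (h : CFOut) : CEOut := by
  obtain ⟨g, c, a, a', d, hg, hgc, hc1, ha, ha', hcd, h⟩ := h
  set g1 : ℝ := (d / 4 - c / 2) / 2 with hg1
  have hg1p : 0 < g1 := by rw [hg1]; linarith
  refine ⟨g, c, a, a', g1, hg, hgc, hc1, ha, ha', hg1p, fun e heg hec hea hea' => ?_⟩
  obtain ⟨C, hC, h⟩ := h e heg hec hea hea'
  have hK := e.K_pos
  set x : ℝ := 2 + 4 * g1 with hx
  have hxp : 0 < x := by rw [hx]; linarith
  set ε : ℝ := g1 / x with hε
  have hεp : 0 < ε := div_pos hg1p hxp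
  have hε4 : ε ≤ 1 / 4 := by
    rw [hε, div_le_iff₀ hxp, hx]
    linarith
  have hxε : x * (1 / 2 - ε) = 1 + g1 := by
    have h1 : x * ε = g1 := by rw [hε]; field_simp
    have h2 : x * (1 / 2 - ε) = x / 2 - x * ε := by ring
    rw [h2, h1, hx]
    ring
  have hcc := cCF_nonneg hεp
  set D : ℝ := (√(C / e.K) * e.K) ^ (1 / 2 - ε) * (e.K * (e.K + e.K ^ 2)) ^ (1 / 4 + ε / 2) with hD
  have hD0 : 0 ≤ D := by positivity
  refine ⟨23 * cCF ε * D, by positivity, fun n b j o hj ho => ?_⟩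
  intro m a b' d' hnd Λ x' ud hR hx' h' hEa hUa hEb hSb ez hez hEd K' hK'
  set ta : ℝ := √(C / e.K) * e2 (-(1 + d / 2)) j with hta
  have hta0 : 0 ≤ ta := mul_nonneg (Real.sqrt_nonneg _) (e2_pos _ _).le
  have hta2 : ta ^ 2 * e.K = C * e2 (-(2 + d)) j := by
    rw [hta, mul_pow, Real.sq_sqrt (div_nonneg hC hK.le), sq (e2 _ _), e2_mul]
    have h1 : -(1 + d / 2) + -(1 + d / 2) = -(2 + d) := by ring
    rw [h1]
    field_simp
  have htb0 : 0 ≤ (e.mp j).t := (e.mp j).t_pos.le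
  have hte : (e.mp j).t = e.K * e2 (-(1 - c)) j := by rw [← hec]; rfl
  have htb2 : (e.mp j).t ^ 2 ≤ e.K + e.K ^ 2 := by
    have h1 : e2 (-(1 - c)) j ≤ 1 := by
      unfold e2
      refine Real.rpow_le_one_of_one_le_of_nonpos one_le_two ?_
      have h2 : (0 : ℝ) ≤ (j : ℝ) := Nat.cast_nonneg j
      nlinarith
    have h2 := e2_pos (-(1 - c)) j
    have h3 : (e.mp j).t ≤ e.K := by
      rw [hte]
      exact mul_le_of_le_one_right hK.le h1
    have h4 : (e.mp j).t ^ 2 ≤ e.K ^ 2 := pow_le_pow_left₀ htb0 h3 2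
    linarith
  have hEb' : En (gb n b) ud (h' b') (e.K + e.K ^ 2) :=
    en_mono (by have := sq_nonneg e.K; linarith) hEb
  have key := costR_cf (σ := shf (n + 7) b) (al := alR Λ ud) hεp hε4 (alv_alR hR) (n := Λ) (f := h')
    (i := m) (a := a) (b := b') (c := d') hnd (ta := ta) (tb := (e.mp j).t) (ea := e.K)
    (eb := e.K + e.K ^ 2) (ec := ez) hta0 htb0 hK.le htb2 hez (esl_alR hEa) (esl_alR hEb')
    (esl_alR hEd) ?_ (usl_of_su hSb) ho hK'
  · refine H444.costR_mono (fun K p u => H922.wP_nonneg zero_le_one _ _) ?_ key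
    have hprE : prE ε ta (e.mp j).t e.K (e.K + e.K ^ 2) ez = D * e2 (-(1 + g1)) j * √ez := by
      unfold prE
      have h1 : ta * (e.mp j).t = √(C / e.K) * e.K * e2 (-x) j := by
        rw [hta, hte]
        have h2 : e2 (-(1 + d / 2)) j * e2 (-(1 - c)) j = e2 (-x) j := by
          rw [e2_mul]
          congr 1
          rw [hx, hg1]
          ring
        rw [← h2]
        ring
      rw [h1, Real.mul_rpow (by positivity) (e2_pos _ _).le, e2_rpow, neg_mul, hxε,
        ← Real.sqrt_eq_rpow, hD]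
      ring
    rw [hprE]
    exact le_of_eq (by ring)
  · intro p hp k hk hkΛ s hs q a0
    have hud : ud k s := hs hkΛ
    rw [hta2]
    exact h n b j hj a k s hk (h' a) (hEa k s hud) (hUa k s hud) m p hp q a0

end

end Vale.Agent.P141.H501
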