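import Vale.Agent.P141.H501.PayT
import Vale.Agent.P141.H444.PayGen

/-!
# P141, line W, module PROC: the payments of one level from CE

* `sum_scale`: one slot divided by a number;
* `CEat`: what CE delivers at one level: the companion `a` is uniform for the systems `US`
  (scalar and generic tests), the companion `c` only scalar-uniform at the level `dc`, the third
  companion is only locally in `L²`;
* `payU_of_ce`: `PayU` for the payers `t.sys` of one level `l`, the second companion uniform for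
  any systems `UB` which give scalar uniformity `dc * sc`.
-/

namespace Vale.Agent.P141.H501

open Finset Function
open Vale.Agent.P141.H315 (Grid dot)
open Vale.Agent.P141.PL (Pt el fc)
open Vale.Agent.P141.PL.H315 (le cube3 Tri)
open Vale.Agent.P141.PL.H571 (W)
open Vale.Agent.P141.PL.H95 (gr shf)
open Vale.Agent.P141.PL.H318 (CSys)
open Vale.Agent.P141.PL.H855 (wN wN_congr wN_update_zero PayU payU_of_nodes)
open Vale.Agent.P141.H347 (LW cd Dat2)
open Vale.Agent.P141.H347.Tr (CostR)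
open Vale.Agent.P141.H347.Fi (Nd)
open Vale.Agent.P141.H922 (wP)
open Vale.Agent.P141.H782 (gb frN mem_frN LSys LSys.S LSys.w)
open Vale.Agent.P141.H8 (Rgn En Un)
open Vale.Agent.P141.H48 (kl)
open Vale.Agent.P141.H736 (Cls cost PSys stcP)
open Vale.Agent.P141.H444 (TSys TDat TDat.sys alR l2c wN_scale csz_fc_7 SU SU.scale gen_half
  pay_scalar_sys)
open Vale.Agent.P141.H379 (nvF sub_frN)

noncomputable section

open scoped Classical

/-- one slot divided by a number -/
theorem sum_scale {o : ℤ} (ho : o = 1 ∨ o = -1) {m c : Fin 4} (hmc : m ≠ c) {s : ℝ} (hs : 0 < s)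
    (h : Fin 4 → ℤ → ℝ) (ψ : ℤ → ℝ) (𝒲 : Finset (ℕ × ℤ)) :
    ∑ N ∈ 𝒲, |wN o (update h m ψ) N| =
      s * ∑ N ∈ 𝒲, |wN o (update (update h c fun y => s⁻¹ * h c y) m ψ) N| := by
  rw [mul_sum]
  refine sum_congr rfl fun N _ => ?_
  set a : Fin 4 → ℝ := fun l => if l = c then s else 1 with ha
  have hpa : ∏ l, a l = s := by
    simp only [ha]
    rw [prod_ite_eq' univ c fun _ => s, if_pos (mem_univ c)]
  have e2 : wN o (update h m ψ) N =
      wN o (fun l y => a l * update (update h c fun y => s⁻¹ * h c y) m ψ l y) N := by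
    refine wN_congr ho fun l y _ => ?_
    by_cases hl : l = m
    · subst hl
      simp only [update_self, ha, if_neg hmc, one_mul]
    · rw [update_of_ne hl, update_of_ne hl]
      by_cases hc : l = c
      · subst hc
        simp only [update_self, ha, if_true]
        rw [← mul_assoc, mul_inv_cancel₀ hs.ne', one_mul]
      · rw [update_of_ne hc]
        simp only [ha, if_neg hc, one_mul]
  rw [e2, wN_scale, hpa, abs_mul, abs_of_pos hs]

/-- **CE at one level**: the companion `a` uniform for `US` (constant and energy `KE`), the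
companion `c` scalar-uniform at the level `dc` (energy `KE`), the companion `d` locally in `L²`. -/
def CEat {n : ℕ} {b : Bool} {κ1 : Type*} (US : Fin 4 → CSys (gb n b) κ1) (o : ℤ)
    (KE dc ce : ℝ) : Prop :=
  ∀ m a c d : Fin 4, [m, a, c, d].Nodup → ∀ (Λ : ℕ) (x : ℤ) (ud : ℕ → ℤ → Prop),
    Rgn (gb n b) ud Λ x ud → ud Λ x → ∀ h : Fin 4 → ℤ → ℝ, En (gb n b) ud (h a) KE →
    Un (US a) KE ud (h a) → En (gb n b) ud (h c) KE → SU (shf (n + 7) b) c dc ud (h c) →
    ∀ ez, 0 ≤ ez → En (gb n b) ud (h d) ez → ∀ K' ≤ Λ,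
    CostR m o K' (ce * √ez) (fun K p u => wP 1 (cube3 K p) u) fun k _ j => kl (alR Λ ud) (h j) k

theorem rgn_self {X : Type*} {g : Grid X} {gd ud : ℕ → X → Prop} {Λ : ℕ} {x : X}
    (h : Rgn g gd Λ x ud) : Rgn g ud Λ x ud where
  const := h.const
  up := h.up
  bel := h.bel
  sub _ _ h := h

theorem en_mono {X : Type*} {g : Grid X} {E E' : ℝ} (hE : E ≤ E') {ud : ℕ → X → Prop} {F : X → ℝ}
    (h : En g ud F E) : En g ud F E' := fun k y hk =>
  (h k y hk).trans (mul_le_mul_of_nonneg_right hE (Nat.cast_nonneg _))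

theorem un_mono {X ι : Type*} {g : Grid X} {S : CSys g ι} {C C' : ℝ} (hC : C ≤ C')
    {ud : ℕ → X → Prop} {F : X → ℝ} (h : Un S C ud F) : Un S C' ud F := fun k y hk i =>
  (h k y hk i).trans (mul_le_mul_of_nonneg_right hC (S.W_nonneg _ _ _))

section main

variable {n : ℕ} {κ' : Type} (t : TSys n κ') (l : ℕ) (b : Bool) {f : Fin 4 → ℤ → ℝ} {o : ℤ}
  {K : ℕ} {V : ℤ} {𝒩 : Finset (ℕ × ℤ)} (hd : Dat2 n f o K V 𝒩) (𝒞 : Finset (ℕ × ℤ))
  {κ1 κ2 : Type*} {US : Fin 4 → CSys (gb n b) κ1} {UB : Fin 4 → CSys (gb n b) κ2}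
  {CA CB EA EB EZ : ℝ} {gd : ℕ → ℤ → Prop} {L : ℕ}

/-- **The static payments from CE and the cost classes.** -/
theorem payU_of_ce {KE dc ce cg CP dA dB sc : ℝ} (hKE : 1 ≤ KE) (hdc : 0 < dc) (hce : 0 ≤ ce)
    (hcg : 0 ≤ cg) (hsc : 0 < sc) (hCE : CEat (b := b) US o KE dc ce)
    (hCP : ∀ m, (t.P l b m).C ≤ CP) (κ : Fin 4 → Fin 4 → Cls (gb n b))
    (hκd : ∀ z, κ z z = l2c (gb n b) KE (zero_le_one.trans hKE))
    (hκ : ∀ z r, r ≠ z → κ z r = stcP 7 (shf (n + 7) b) (fc r) (csz_fc_7 r) dc hdc KE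
      (zero_le_one.trans hKE))
    (hcost : ∀ m z k x i, (t.P l b m).live k i →
      cost (κ z) o m ((t.P l b m).ψ i) k ((gb n b).cube k x) ≤
        cg * (t.P l b m).W k ((gb n b).cube k x) i)
    (hCA : CA ≤ KE) (hEA : EA ≤ KE) (hEB : EB ≤ KE * sc ^ 2)
    (hA : ∀ a ud (F : ℤ → ℝ), Un (US a) CA ud F → SU (shf (n + 7) b) a dA ud F) (hdA : dA ≤ dc)
    (hB : ∀ c ud (F : ℤ → ℝ), Un (UB c) CB ud F → SU (shf (n + 7) b) c dB ud F)
    (hdB : dB ≤ dc * sc) :
    PayU (nvF hd b 𝒞) gd L (fun m => t.sys.w l b m) US UB CA CB EA EB EZ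
      (16 * (sc * ce) / t.δ l + 2 * CP * (sc * cg)) := by
  have hKE0 : 0 ≤ KE := zero_le_one.trans hKE
  have hCP0 : 0 ≤ CP := (zero_le_one.trans (t.P l b 0).one_le).trans (hCP 0)
  refine payU_of_nodes (s := shf (n + 7) b) hd.ho (sub_frN hd) ?_
  intro m a c d hnd Λ x ud hΛ hR hud h hA1 hA2 hB1 hB2 ez hez hezZ hZ 𝒲 hW hWu j hj hjL i
  obtain ⟨hmc, hac, hcd, hdm⟩ : m ≠ c ∧ a ≠ c ∧ c ≠ d ∧ m ≠ d := by
    have hn := hnd
    simp only [List.nodup_cons, List.mem_cons, List.not_mem_nil, not_or, or_false,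
      List.nodup_nil, and_true, not_false_eq_true] at hn
    exact ⟨hn.1.2.1, hn.2.1.1, hn.2.2, hn.1.2.2⟩
  have hNd : Nd (shf (n + 7) b) ud 𝒲 := fun N hN =>
    ⟨(hd.root N (mem_frN.1 (hW hN)).1).1, sub_frN hd N (hW hN), hWu N hN⟩
  have hpos := t.pos l
  have hω := (t.sys.w l b m).nonneg j Λ x i
  have hcd0 : 0 ≤ cd (gr 7 (shf (n + 7) b)) Λ x := Nat.cast_nonneg _
  have hsz := Real.sqrt_nonneg ez
  have hsuA : SU (shf (n + 7) b) a dA ud (h a) := hA a ud (h a) hA2
  have hsuB : SU (shf (n + 7) b) c dB ud (h c) := hB c ud (h c) hB2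
  have c1 : 0 ≤ 16 * (sc * ce) / t.δ l := by positivity
  have c2 : 0 ≤ 2 * CP * (sc * cg) := by positivity
  rcases i with i | i
  · -- a scalar atom
    set h' : Fin 4 → ℤ → ℝ := update h c fun y => sc⁻¹ * h c y with hh'
    have e0 : h' a = h a := by rw [hh', update_of_ne hac]
    have e1 : h' c = fun y => sc⁻¹ * h c y := by rw [hh', update_self]
    have e2 : h' d = h d := by rw [hh', update_of_ne hcd.symm]
    have key := hCE m a c d hnd Λ x ud (rgn_self hR) hud h' (by rw [e0]; exact en_mono hEA hA1)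
      (by rw [e0]; exact un_mono hCA hA2)
      (by rw [e1]; exact H444.en_scale hsc hB1 hEB)
      (by rw [e1]; exact hsuB.scale hsc hdB) ez hez (by rw [e2]; exact hZ)
    have h1 := pay_scalar_sys t l b hR hd.ho m (mul_nonneg hce hsz) key hNd hj i
    rw [sum_scale hd.ho hmc hsc h _ 𝒲]
    refine (mul_le_mul_of_nonneg_left h1 hsc.le).trans ?_
    have h3 : sc * (16 * (ce * √ez) / t.δ l * (t.sys.w l b m).ω j Λ x (Sum.inl i) *
        cd (gr 7 (shf (n + 7) b)) Λ x) = 16 * (sc * ce) / t.δ l * √ez *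
        (t.sys.w l b m).ω j Λ x (Sum.inl i) * cd (gr 7 (shf (n + 7) b)) Λ x := by ring
    rw [h3]
    refine mul_le_mul_of_nonneg_right (mul_le_mul_of_nonneg_right ?_ hω) hcd0
    exact mul_le_mul_of_nonneg_right (by linarith) hsz
  · -- a generic atom
    have h1 := gen_half (t.P l b m) (κ := κ d) hd.ho hnd hdc hKE0 hKE (hκd d) (hκ d) hcg
      (fun i hi => hcost m d Λ x i hi) hR hNd (f := h) (ea := EA) (da := dA) (sa := 1) (eb := EB)
      (db := dB) (sb := sc) (ez := ez) one_pos hA1 hsuA (by linarith) (by linarith) hsc hB1 hsuB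
      hdB hEB hez hZ hj i
    have h2 := t.packed_le l b m j Λ x i
    refine h1.trans ((mul_le_mul_of_nonneg_left h2 (by positivity)).trans ?_)
    have h3 : 2 * (t.P l b m).C * (sc * cg) ≤ 2 * CP * (sc * cg) := by
      have := hCP m
      gcongr
    have h4 : 2 * (t.P l b m).C * (sc * cg) ≤ 16 * (sc * ce) / t.δ l + 2 * CP * (sc * cg) := by
      linarith
    have h5 : 0 ≤ √ez * (t.sys.w l b m).ω j Λ x (Sum.inr i) *
        cd (gr 7 (shf (n + 7) b)) Λ x := mul_nonneg (mul_nonneg hsz hω) hcd0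
    calc 1 * sc * cg * √ez * (2 * (t.P l b m).C * (t.sys.w l b m).ω j Λ x (Sum.inr i) *
        cd (gb n b) Λ x)
        = 2 * (t.P l b m).C * (sc * cg) * (√ez * (t.sys.w l b m).ω j Λ x (Sum.inr i) *
          cd (gr 7 (shf (n + 7) b)) Λ x) := by ring
      _ ≤ (16 * (sc * ce) / t.δ l + 2 * CP * (sc * cg)) * (√ez *
          (t.sys.w l b m).ω j Λ x (Sum.inr i) * cd (gr 7 (shf (n + 7) b)) Λ x) :=
          mul_le_mul_of_nonneg_right h4 h5
      _ = _ := by ring

end main

end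

end Vale.Agent.P141.H501
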