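import Vale.Agent.P141.H501.StepOf
import Vale.Agent.P141.H444.EndOf
import Vale.Agent.P141.H48.EnTop
import Vale.Agent.P141.PL.H855.WinAll

/-!
# P141, line W: the boundedness at `(4, 4, 4)` from the two remaining statements

`CEOut` (the static payments with gain) and `H444.EndStmT` (END) give `StepIn`; with (E)
(`H48.enOut`) they give the boundedness at `(4, 4, 4)`.
-/

namespace Vale.Agent.P141.H501

open Vale.Agent.P141.PL.H855 (StepIn boundedAt_444_of_stepIn)
open Vale.Agent.P141.H444 (EndStmT endS_of T_genL CE0)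
open Vale.Agent.P141.H347.Gs (Ex e2 e2_pos)

noncomputable section

/-- END in the form of `EndOut` -/
theorem endOut_of (h : EndStmT) : EndOut := by
  intro e he κ c hκ hκg hc _
  have hcG : (0 : ℝ) ≤ cG := zero_le_one.trans one_le_cG
  have hκ1 : κ ≤ 1 := by
    have := e.g_le
    have := e.c_le
    linarith
  obtain ⟨nR, A, eE, hA, heE, h1⟩ := endS_of h e he hκ hκ1 hc (Cg := cG) (C0 := cH e) hcG
  exact ⟨nR, A, eE, hA, heE, h1⟩

/-- **`StepIn` from the two remaining statements.** -/
theorem stepIn_of_ce_end (hCE : CEOut) (hEND : EndStmT) : StepIn := by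
  refine stepIn_of hCE (endOut_of hEND) fun e => ?_
  have hC : 0 ≤ H48.Cen (1 / 4) * (2 ^ 7 * √(2 ^ 7)) := by
    have := H48.Cen_nonneg (ε := 1 / 4) (by norm_num)
    positivity
  exact ⟨_, fun j => by
    have h1 := e2_pos e.a' j
    have h2 : 0 ≤ CE0 := H444.CE0_nonneg
    positivity, fun n j => T_genL hC (H48.enL (by norm_num) le_rfl) e n j⟩

/-- **The boundedness at `(4, 4, 4)` from CE and END.** -/
theorem boundedAt_444_of_ce_end (hCE : CEOut) (hEND : EndStmT) :
    Vale.Agent.P141.BoundedAt 4 4 4 (4 / 3) :=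
  boundedAt_444_of_stepIn (H48.Cen_nonneg (ε := 1 / 4) (by norm_num)) (H48.enOut (by norm_num) le_rfl)
    (stepIn_of_ce_end hCE hEND)

end

end Vale.Agent.P141.H501
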