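import Vale.Agent.P141.PL.H855.PayDefs
import Vale.Agent.P141.H379.WinT
import Vale.Agent.P141.H444.PayG

/-!
# P141, line W, module PROC: the static payments of the total systems

* `AdmU`: the admissible static companions of `PayU`;
* `gen_cls`: the payment of a generic atom from the cost of its class, third companion with local
  energy `≤ ez` (any `ez ≥ 0`, also `0`);
* `payU_sys`: `PayU` for the nodes of one datum and the payers `t.sys` from (scalar half) `CostR`
  and (generic half) sums over sets of nodes; `payU_sys_cls`: the generic half from cost classes.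
-/

namespace Vale.Agent.P141.H501

open Finset Function
open Vale.Agent.P141.H315 (Grid dot)
open Vale.Agent.P141.PL (Pt el fc)
open Vale.Agent.P141.PL.H315 (le cube3 Tri)
open Vale.Agent.P141.PL.H571 (W)
open Vale.Agent.P141.PL.H95 (gr shf)
open Vale.Agent.P141.PL.H318 (CSys)
open Vale.Agent.P141.PL.H855 (wN wN_congr wN_update_zero PayU payU_of_nodes)
open Vale.Agent.P141.H347 (LW cd Dat2)
open Vale.Agent.P141.H347.Tr (CostR)
open Vale.Agent.P141.H347.Fi (Nd)
open Vale.Agent.P141.H922 (wP)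
open Vale.Agent.P141.H782 (gb frN mem_frN LSys LSys.S LSys.w)
open Vale.Agent.P141.H8 (Rgn En Un)
open Vale.Agent.P141.H48 (kl)
open Vale.Agent.P141.H736 (Cls cost PSys)
open Vale.Agent.P141.H444 (TSys TDat TDat.sys alR l2c ok_l2c pay_gen_sys pay_scalar_sys)
open Vale.Agent.P141.H379 (nvF sub_frN)

noncomputable section

open scoped Classical

/-- **The admissible static companions** of `PayU`: slots `a`, `c` uniform, slot `d` with local
energy at most `ez`. -/
structure AdmU {X κ1 κ2 : Type*} (g : Grid X) (gd : ℕ → X → Prop) (L : ℕ)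
    (UA : Fin 4 → CSys g κ1) (UB : Fin 4 → CSys g κ2) (CA CB EA EB EZ : ℝ) (m a c d : Fin 4)
    (Λ : ℕ) (x : X) (ud : ℕ → X → Prop) (h : Fin 4 → X → ℝ) (ez : ℝ) : Prop where
  nodup : [m, a, c, d].Nodup
  le : Λ ≤ L
  rgn : Rgn g gd Λ x ud
  top : ud Λ x
  enA : En g ud (h a) EA
  unA : Un (UA a) CA ud (h a)
  enB : En g ud (h c) EB
  unB : Un (UB c) CB ud (h c)
  nn : 0 ≤ ez
  leZ : ez ≤ EZ
  enZ : En g ud (h d) ez

/-- local energy of a multiple -/
theorem en_scale {X : Type*} {g : Grid X} {ud : ℕ → X → Prop} {F : X → ℝ} {e : ℝ}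
    (h : En g ud F e) (s : ℝ) : En g ud (fun y => s * F y) (s ^ 2 * e) := by
  intro k y hy
  have h1 : dot (g.cube k y) (fun y => s * F y) (fun y => s * F y) =
      s ^ 2 * dot (g.cube k y) F F := by
    unfold dot
    rw [mul_sum]
    exact sum_congr rfl fun z _ => by ring
  rw [h1, mul_assoc]
  exact mul_le_mul_of_nonneg_left (h k y hy) (sq_nonneg s)

/-- a function with local energy `0` vanishes on the used cells -/
theorem zero_of_en {X : Type*} {g : Grid X} {ud : ℕ → X → Prop} {F : X → ℝ}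
    (h : En g ud F 0) {k : ℕ} {y : X} (hy : ud k y) {z : X} (hz : z ∈ g.cube k y) : F z = 0 := by
  have h1 := h k y hy
  rw [zero_mul] at h1
  unfold dot at h1
  have h2 : F z * F z ≤ 0 := le_trans (single_le_sum (f := fun z => F z * F z)
    (fun z _ => mul_self_nonneg (F z)) hz) h1
  exact mul_self_eq_zero.1 (le_antisymm h2 (mul_self_nonneg _))

section gen

variable {n : ℕ} {κ' : Type} (t : TSys n κ') (l : ℕ) (b : Bool)

/-- **The payment of a generic atom from its cost class**: the companions of the slots `a`, `c`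
admissible after division by `sa`, `sc`, the third one with local energy `≤ ez`. -/
theorem gen_cls {gd ud : ℕ → ℤ → Prop} {Λ : ℕ} {x : ℤ}
    (hR : Rgn (gr 7 (shf (n + 7) b)) gd Λ x ud) {o : ℤ} (ho : o = 1 ∨ o = -1) {m a c d : Fin 4}
    (hnd : [m, a, c, d].Nodup) (κ : Fin 4 → Cls (gb n b)) {E3 : ℝ} (hE3 : 0 < E3)
    (hκ : κ d = l2c (gb n b) E3 hE3.le) {cg : ℝ} (hcg : 0 ≤ cg)
    (hcost : ∀ i, (t.P l b m).live Λ i →
      cost κ o m ((t.P l b m).ψ i) Λ ((gb n b).cube Λ x) ≤
        cg * (t.P l b m).W Λ ((gb n b).cube Λ x) i) {𝒲 : Finset (ℕ × ℤ)}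
    (hW : Nd (shf (n + 7) b) ud 𝒲) {h : Fin 4 → ℤ → ℝ} {sa sc : ℝ} (hsa : 0 < sa) (hsc : 0 < sc)
    (hoka : (κ a).ok Λ ((gb n b).cube Λ x) 𝒲 fun _ y => sa⁻¹ * h a y)
    (hokc : (κ c).ok Λ ((gb n b).cube Λ x) 𝒲 fun _ y => sc⁻¹ * h c y) {ez : ℝ} (hez : 0 ≤ ez)
    (hd : En (gb n b) ud (h d) ez) {j : ℕ} (hj : Λ ≤ j) (i : κ') :
    ∑ N ∈ 𝒲, |wN o (update h m ((t.sys.S l b m).a j (Sum.inr i))) N| ≤
      2 * (t.P l b m).C * (sa * sc * cg / √E3) * √ez *
        (t.sys.w l b m).ω j Λ x (Sum.inr i) * cd (gb n b) Λ x := by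
  obtain ⟨hma, hmc, hmd, hac, had, hcd⟩ : m ≠ a ∧ m ≠ c ∧ m ≠ d ∧ a ≠ c ∧ a ≠ d ∧ c ≠ d := by
    simp only [List.nodup_cons, List.mem_cons, List.not_mem_nil, not_or, or_false,
      List.nodup_nil, and_true, not_false_eq_true] at hnd
    obtain ⟨⟨h1, h2, h3⟩, ⟨h4, h5⟩, h6⟩ := hnd
    exact ⟨h1, h2, h3, h4, h5, h6⟩
  have hC : 0 ≤ (t.P l b m).C := zero_le_one.trans (t.P l b m).one_le
  have hω := (t.sys.w l b m).nonneg j Λ x (Sum.inr i)
  have hcd0 : 0 ≤ cd (gb n b) Λ x := Nat.cast_nonneg _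
  have hs3 : 0 < √E3 := Real.sqrt_pos.2 hE3
  rcases hez.eq_or_lt with h0 | h0
  · -- the third companion vanishes
    subst h0
    have e1 : ∀ N ∈ 𝒲, |wN o (update h m ((t.sys.S l b m).a j (Sum.inr i))) N| = 0 := by
      intro N hN
      obtain ⟨_, h2, h3⟩ := hW N hN
      have e2 : wN o (update h m ((t.sys.S l b m).a j (Sum.inr i))) N =
          wN o (update (update h m ((t.sys.S l b m).a j (Sum.inr i))) d 0) N := by
        refine wN_congr ho fun r y hy => ?_
        by_cases hr : r = d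
        · subst hr
          rw [update_self, update_of_ne hmd.symm]
          exact zero_of_en hd h3 (h2 hy)
        · rw [update_of_ne hr]
      rw [e2, wN_update_zero, abs_zero]
    rw [sum_congr rfl e1, sum_const_zero]
    positivity
  · set s : Fin 4 → ℝ := fun r => if r = a then sa else if r = c then sc else
      if r = d then √ez / √E3 else 1 with hs
    have hspos : ∀ r, 0 < s r := by
      intro r
      simp only [hs]
      split_ifs
      · exact hsa
      · exact hsc
      · exact div_pos (Real.sqrt_pos.2 h0) hs3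
      · exact one_pos
    have hsa' : s a = sa := by simp only [hs, if_true]
    have hsc' : s c = sc := by simp only [hs, if_neg hac.symm, if_true]
    have hsd' : s d = √ez / √E3 := by simp only [hs, if_neg had.symm, if_neg hcd.symm, if_true]
    have hprod : ∏ r ∈ univ.erase m, s r = sa * sc * (√ez / √E3) := by
      have huniv : (univ : Finset (Fin 4)).erase m = {a, c, d} := by
        ext r
        simp only [mem_erase, mem_univ, and_true, mem_insert, mem_singleton]
        constructor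
        · intro hr
          by_contra hcon
          simp only [not_or] at hcon
          have h5 : ({m, a, c, d, r} : Finset (Fin 4)).card ≤ 4 := by
            have := card_le_univ ({m, a, c, d, r} : Finset (Fin 4))
            simpa using this
          have h6 : ({m, a, c, d, r} : Finset (Fin 4)).card = 5 := by
            rw [card_insert_of_notMem, card_insert_of_notMem, card_insert_of_notMem,
              card_insert_of_notMem, card_singleton]
            · simp only [mem_singleton]; exact fun h => hcon.2.2 h.symm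
            · simp only [mem_insert, mem_singleton, not_or]
              exact ⟨hcd, fun h => hcon.2.1 h.symm⟩
            · simp only [mem_insert, mem_singleton, not_or]
              exact ⟨hac, had, fun h => hcon.1 h.symm⟩
            · simp only [mem_insert, mem_singleton, not_or]
              exact ⟨hma, hmc, hmd, fun h => hr h.symm⟩
          omega
        · rintro (rfl | rfl | rfl)
          · exact hma.symm
          · exact hmc.symm
          · exact hmd.symm
      rw [huniv, prod_insert, prod_insert, prod_singleton, hsa', hsc', hsd', mul_assoc]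
      · simp only [mem_singleton]; exact hcd
      · simp only [mem_insert, mem_singleton, not_or]; exact ⟨hac, had⟩
    have key := pay_gen_sys t l b hR ho m κ hcg hcost hW hspos (h := h) (fun r hr => by
      by_cases h1 : r = a
      · subst h1
        rw [hsa']
        exact hoka
      · by_cases h2 : r = c
        · subst h2
          rw [hsc']
          exact hokc
        · have h3 : r = d := by
            by_contra h3
            have h5 : ({m, a, c, d, r} : Finset (Fin 4)).card ≤ 4 := by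
              have := card_le_univ ({m, a, c, d, r} : Finset (Fin 4))
              simpa using this
            have h6 : ({m, a, c, d, r} : Finset (Fin 4)).card = 5 := by
              rw [card_insert_of_notMem, card_insert_of_notMem, card_insert_of_notMem,
                card_insert_of_notMem, card_singleton]
              · simp only [mem_singleton]; exact fun h => h3 h.symm
              · simp only [mem_insert, mem_singleton, not_or]
                exact ⟨hcd, fun h => h2 h.symm⟩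
              · simp only [mem_insert, mem_singleton, not_or]
                exact ⟨hac, had, fun h => h1 h.symm⟩
              · simp only [mem_insert, mem_singleton, not_or]
                exact ⟨hma, hmc, hmd, fun h => hr h.symm⟩
            omega
          subst h3
          rw [hsd', hκ]
          refine ok_l2c hE3.le hR hW ?_
          have h4 := en_scale hd (√ez / √E3)⁻¹
          have h5 : ((√ez / √E3)⁻¹) ^ 2 * ez = E3 := by
            rw [inv_div, div_pow, Real.sq_sqrt hE3.le, Real.sq_sqrt hez]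
            field_simp
          rwa [h5] at h4) hj i
    refine key.trans (le_of_eq ?_)
    rw [hprod]
    ring

end gen

section main

variable {n : ℕ} {κ' : Type} (t : TSys n κ') (l : ℕ) (b : Bool) {f : Fin 4 → ℤ → ℝ} {o : ℤ}
  {K : ℕ} {V : ℤ} {𝒩 : Finset (ℕ × ℤ)} (hd : Dat2 n f o K V 𝒩) (𝒞 : Finset (ℕ × ℤ))
  {κ1 κ2 : Type*} {UA : Fin 4 → CSys (gb n b) κ1} {UB : Fin 4 → CSys (gb n b) κ2}
  {CA CB EA EB EZ : ℝ} {gd : ℕ → ℤ → Prop} {L : ℕ}

/-- **The static payments of the total systems** for the nodes of one datum: the scalar half from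
`CostR`, the generic half from sums over sets of nodes. -/
theorem payU_sys {Cs Cg : ℝ} (hCs : 0 ≤ Cs) (hCg : 0 ≤ Cg)
    (hs : ∀ m a c d Λ x ud h ez,
      AdmU (gb n b) gd L UA UB CA CB EA EB EZ m a c d Λ x ud h ez → ∀ K' ≤ Λ,
      CostR m o K' (Cs * √ez) (fun K p u => wP 1 (cube3 K p) u)
        fun k _ j => kl (alR Λ ud) (h j) k)
    (hq : ∀ m a c d Λ x ud h ez,
      AdmU (gb n b) gd L UA UB CA CB EA EB EZ m a c d Λ x ud h ez →
      ∀ 𝒲, Nd (shf (n + 7) b) ud 𝒲 → ∀ j, Λ ≤ j → j ≤ L → ∀ i : κ',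
      ∑ N ∈ 𝒲, |wN o (update h m ((t.sys.S l b m).a j (Sum.inr i))) N| ≤
        Cg * √ez * (t.sys.w l b m).ω j Λ x (Sum.inr i) * cd (gb n b) Λ x) :
    PayU (nvF hd b 𝒞) gd L (fun m => t.sys.w l b m) UA UB CA CB EA EB EZ
      (16 * Cs / t.δ l + Cg) := by
  refine payU_of_nodes (s := shf (n + 7) b) hd.ho (sub_frN hd) ?_
  intro m a c d hnd Λ x ud hΛ hR hud h hA1 hA2 hB1 hB2 ez hez hezZ hZ 𝒲 hW hWu j hj hjL i
  have had : AdmU (gb n b) gd L UA UB CA CB EA EB EZ m a c d Λ x ud h ez :=
    ⟨hnd, hΛ, hR, hud, hA1, hA2, hB1, hB2, hez, hezZ, hZ⟩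
  have hNd : Nd (shf (n + 7) b) ud 𝒲 := fun N hN =>
    ⟨(hd.root N (mem_frN.1 (hW hN)).1).1, sub_frN hd N (hW hN), hWu N hN⟩
  have hpos := t.pos l
  have hω := (t.sys.w l b m).nonneg j Λ x i
  have hcd0 : 0 ≤ cd (gr 7 (shf (n + 7) b)) Λ x := Nat.cast_nonneg _
  have hsz := Real.sqrt_nonneg ez
  rcases i with i | i
  · have h1 := pay_scalar_sys t l b hR hd.ho m (mul_nonneg hCs hsz)
      (hs m a c d Λ x ud h ez had) hNd hj i
    refine h1.trans ?_
    refine mul_le_mul_of_nonneg_right (mul_le_mul_of_nonneg_right ?_ hω) hcd0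
    have h2 : 0 ≤ Cg * √ez := mul_nonneg hCg hsz
    have h3 : 16 * (Cs * √ez) / t.δ l = 16 * Cs / t.δ l * √ez := by ring
    rw [h3, add_mul]
    linarith
  · refine (hq m a c d Λ x ud h ez had 𝒲 hNd j hj hjL i).trans ?_
    refine mul_le_mul_of_nonneg_right (mul_le_mul_of_nonneg_right ?_ hω) hcd0
    have h2 : 0 ≤ 16 * Cs / t.δ l * √ez := by positivity
    rw [add_mul]
    linarith

/-- the same with the generic half from packed weights -/
theorem payU_sys_W {Cs Cq CP : ℝ} (hCs : 0 ≤ Cs) (hCq : 0 ≤ Cq) (hCP : ∀ m, (t.P l b m).C ≤ CP)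
    (hs : ∀ m a c d Λ x ud h ez,
      AdmU (gb n b) gd L UA UB CA CB EA EB EZ m a c d Λ x ud h ez → ∀ K' ≤ Λ,
      CostR m o K' (Cs * √ez) (fun K p u => wP 1 (cube3 K p) u)
        fun k _ j => kl (alR Λ ud) (h j) k)
    (hq : ∀ m a c d Λ x ud h ez,
      AdmU (gb n b) gd L UA UB CA CB EA EB EZ m a c d Λ x ud h ez →
      ∀ 𝒲, Nd (shf (n + 7) b) ud 𝒲 → ∀ j, Λ ≤ j → j ≤ L → ∀ i : κ',
      ∑ N ∈ 𝒲, |wN o (update h m ((t.P l b m).toC.a j i)) N| ≤
        Cq * √ez * (t.P l b m).W Λ ((gb n b).cube Λ x) i) :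
    PayU (nvF hd b 𝒞) gd L (fun m => t.sys.w l b m) UA UB CA CB EA EB EZ
      (16 * Cs / t.δ l + 2 * CP * Cq) := by
  have hCP0 : 0 ≤ CP := (zero_le_one.trans (t.P l b 0).one_le).trans (hCP 0)
  refine payU_sys t l b hd 𝒞 hCs (by positivity) hs
    fun m a c d Λ x ud h ez had 𝒲 hW j hj hjL i => ?_
  have h1 := hq m a c d Λ x ud h ez had 𝒲 hW j hj hjL i
  have h2 := t.packed_le l b m j Λ x i
  have hω := (t.sys.w l b m).nonneg j Λ x (Sum.inr i)
  have hcd0 : 0 ≤ cd (gb n b) Λ x := Nat.cast_nonneg _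
  have hsz := Real.sqrt_nonneg ez
  refine h1.trans ((mul_le_mul_of_nonneg_left h2 (mul_nonneg hCq hsz)).trans ?_)
  have h3 : 2 * (t.P l b m).C * Cq ≤ 2 * CP * Cq := by
    have := hCP m
    gcongr
  calc Cq * √ez * (2 * (t.P l b m).C * (t.sys.w l b m).ω j Λ x (Sum.inr i) * cd (gb n b) Λ x)
      = 2 * (t.P l b m).C * Cq * (√ez * ((t.sys.w l b m).ω j Λ x (Sum.inr i) *
        cd (gb n b) Λ x)) := by ring
    _ ≤ 2 * CP * Cq * (√ez * ((t.sys.w l b m).ω j Λ x (Sum.inr i) * cd (gb n b) Λ x)) :=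
        mul_le_mul_of_nonneg_right h3 (by positivity)
    _ = _ := by ring

/-- **The same with the generic half from cost classes.** -/
theorem payU_sys_cls {Cs CP cg sa sc E3 : ℝ} (hCs : 0 ≤ Cs) (hcg : 0 ≤ cg) (hsa : 0 < sa)
    (hsc : 0 < sc) (hE3 : 0 < E3) (hCP : ∀ m, (t.P l b m).C ≤ CP)
    (κ : Fin 4 → Fin 4 → Fin 4 → Fin 4 → Fin 4 → Cls (gb n b))
    (hκ : ∀ m a c d, κ m a c d d = l2c (gb n b) E3 hE3.le)
    (hcost : ∀ m a c d, [m, a, c, d].Nodup → ∀ k x i, (t.P l b m).live k i →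
      cost (κ m a c d) o m ((t.P l b m).ψ i) k ((gb n b).cube k x) ≤
        cg * (t.P l b m).W k ((gb n b).cube k x) i)
    (hok : ∀ m a c d Λ x ud h ez,
      AdmU (gb n b) gd L UA UB CA CB EA EB EZ m a c d Λ x ud h ez →
      ∀ 𝒲, Nd (shf (n + 7) b) ud 𝒲 →
      (κ m a c d a).ok Λ ((gb n b).cube Λ x) 𝒲 (fun _ y => sa⁻¹ * h a y) ∧
      (κ m a c d c).ok Λ ((gb n b).cube Λ x) 𝒲 (fun _ y => sc⁻¹ * h c y))
    (hs : ∀ m a c d Λ x ud h ez,
      AdmU (gb n b) gd L UA UB CA CB EA EB EZ m a c d Λ x ud h ez → ∀ K' ≤ Λ,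
      CostR m o K' (Cs * √ez) (fun K p u => wP 1 (cube3 K p) u)
        fun k _ j => kl (alR Λ ud) (h j) k) :
    PayU (nvF hd b 𝒞) gd L (fun m => t.sys.w l b m) UA UB CA CB EA EB EZ
      (16 * Cs / t.δ l + 2 * CP * (sa * sc * cg / √E3)) := by
  have hCP0 : 0 ≤ CP := (zero_le_one.trans (t.P l b 0).one_le).trans (hCP 0)
  refine payU_sys t l b hd 𝒞 hCs (by positivity) hs
    fun m a c d Λ x ud h ez had 𝒲 hW j hj hjL i => ?_
  obtain ⟨h1, h2⟩ := hok m a c d Λ x ud h ez had 𝒲 hW
  refine (gen_cls t l b had.rgn hd.ho had.nodup (κ m a c d) hE3 (hκ m a c d) hcg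
    (fun i hi => hcost m a c d had.nodup Λ x i hi) hW hsa hsc h1 h2 had.nn had.enZ hj i).trans ?_
  have hω := (t.sys.w l b m).nonneg j Λ x (Sum.inr i)
  have hcd0 : 0 ≤ cd (gb n b) Λ x := Nat.cast_nonneg _
  refine mul_le_mul_of_nonneg_right (mul_le_mul_of_nonneg_right
    (mul_le_mul_of_nonneg_right ?_ (Real.sqrt_nonneg _)) hω) hcd0
  have := hCP m
  have h3 : 0 ≤ sa * sc * cg / √E3 := by positivity
  gcongr

end main

end

end Vale.Agent.P141.H501
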