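import Vale.Agent.P141.PL.H855.TrAl
import Vale.Agent.P141.H935.Frz2
import Vale.Agent.P141.H748.MbbW
import Vale.Agent.P141.H610.Cut
import Vale.Agent.P141.H8.Step

/-!
# P141, line W, PROC (S9): the hypotheses of the rounds on a window

On a region `ud` of one window the difference of two residuals of the same data is the sum of the
births alive at the top of `ud` and of the births inside `ud`: `TR_P`.
`rnd_window`: the structure `H8.Rnd` for the role `P = V j0 - V j1`, from static payments and from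
the slots of `V j - Ue j`.
-/

namespace Vale.Agent.P141.H501

open Finset Function
open Vale.Agent.P141.PL.H571 (W)
open Vale.Agent.P141.PL.H95 (gr)
open Vale.Agent.P141.H315 Vale.Agent.P141.PL.H318 Vale.Agent.P141.H347 Vale.Agent.P141.H297
open Vale.Agent.P141.H8 Vale.Agent.P141.PL.H855 Vale.Agent.P141.H935 Vale.Agent.P141.H748

noncomputable section

open scoped Classical

variable {X ι ι' α : Type*} {g : Grid X} {J : Type*} [Fintype J] {S : J → CSys g ι}
  {w : ∀ j, LW (S j)} {L : ℕ} {e : ℝ} {F : J → X → ℝ} {gd : ℕ → X → Prop}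
  {V H : J → ℕ → X → ℝ} {rs : J → ℕ → X → Prop} {lm : J → ℕ → X → ℝ} {e0 C2 : ℝ}
  {ud : ℕ → X → Prop} {Λ L0 : ℕ} {x0 : X}

/-- a region of cells of the windows with the top scale `Λ` -/
structure InW (w : ∀ j, LW (S j)) (L : ℕ) (gd : ℕ → X → Prop) (V H : J → ℕ → X → ℝ)
    (rs : J → ℕ → X → Prop) (e0 C2 : ℝ) (Λ : ℕ) (Wd : ℕ → X → Prop) : Prop where
  le : Λ ≤ L
  win : ∀ k y, Wd k y → gd k y ∧ k ≤ Λ ∧ tp w L gd V H rs e0 C2 k y = Λ

theorem inW_wr {gd0 : ℕ → X → Prop} (hsub : ∀ k y, gd0 k y → gd k y) (hΛ : Λ ≤ L) (z : X) :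
    InW w L gd V H rs e0 C2 Λ (Wr g gd0 (tp w L gd V H rs e0 C2) Λ z) :=
  ⟨hΛ, fun k y h => ⟨hsub k y h.1, h.2.1, h.2.2.2⟩⟩

variable {Wd : ℕ → X → Prop}

/-- sub-regions of a window have no restarts and a small drop -/
theorem sub_rgn (hP : Paths w L e F gd V H rs lm) (he0 : 0 ≤ e0)
    (hW : InW w L gd V H rs e0 C2 Λ Wd) (hR : Rgn g Wd L0 x0 ud) (hx : ud L0 x0) :
    Sub S L gd H rs L0 ud 0 e0 := by
  obtain ⟨hg0, hL0, htp0⟩ := hW.win L0 x0 (hR.sub _ _ hx)
  have hΛ := hW.le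
  set pd : ℕ → X → Prop := fun k y => k ≤ L0 → ud k y with hpd
  have hc : ∀ k x y, y ∈ g.cube k x → (pd k y ↔ pd k x) := by
    intro k x y hy
    simp only [hpd]
    exact imp_congr_right fun _ => hR.const k x y hy
  have hup : ∀ k < Λ, ∀ x, pd k x → pd (k + 1) x := by
    intro k _ x h hk
    exact hR.up k (by omega) x (h (by omega))
  have hS := sub_window hP he0 hΛ (C0 := C2) hc hup
  have key : ∀ k ≤ L0, ∀ y, ud k y ↔
      (k ≤ Λ ∧ pd k y ∧ gd k y ∧ tp w L gd V H rs e0 C2 k y = Λ) := by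
    intro k hk y
    constructor
    · intro h
      obtain ⟨h1, h2, h3⟩ := hW.win k y (hR.sub _ _ h)
      exact ⟨h2, fun _ => h, h1, h3⟩
    · rintro ⟨_, h2, _, _⟩
      exact h2 hk
  refine ⟨hL0.trans hΛ, hR.const, hR.up, fun k _ x h => (hW.win k x (hR.sub _ _ h)).1,
    fun j k hk x h => ?_, fun j k hk x h => ?_⟩
  · refine le_trans (le_of_eq ?_) (hS.rest j k (hk.trans hL0) x ((key k hk x).1 h))
    refine sum_congr rfl fun i hi => sum_congr rfl fun z _ => ?_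
    rw [mem_range] at hi
    have h1 := key i (by omega) z
    by_cases h2 : ud i z
    · have h3 := h1.1 h2
      congr 1
      exact propext (and_congr_left fun _ => h1)
    · congr 1
      exact propext (and_congr_left fun _ => h1)
  · refine le_trans (le_of_eq ?_) (hS.drop j k (hk.trans hL0) x ((key k hk x).1 h))
    refine sum_congr rfl fun i hi => sum_congr rfl fun z _ => ?_
    rw [mem_range] at hi
    have h1 := key i (by omega) z
    unfold du
    by_cases h2 : ud i z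
    · rw [if_pos h2, if_pos (h1.1 h2)]
    · rw [if_neg h2, if_neg fun h3 => h2 (h1.2 h3)]

/-- inside a window the residual changes by the births -/
theorem V_sub_eq (hP : Paths w L e F gd V H rs lm) (hW : InW w L gd V H rs e0 C2 Λ Wd)
    (hR : Rgn g Wd L0 x0 ud) (hx : ud L0 x0) (j : J) {k : ℕ} {y u : X} (hy : ud k y)
    (hu : u ∈ g.cube k y) :
    V j L0 u - V j k u = Ps L0 (fun m => birth (S j) m (H j m)) k u := by
  obtain ⟨_, hL0, htp0⟩ := hW.win L0 x0 (hR.sub _ _ hx)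
  obtain ⟨_, hk, htp⟩ := hW.win k y (hR.sub _ _ hy)
  obtain ⟨hkL, hyx⟩ := hR.bel k y hy
  have h1 := V_top_eq (e' := e0) (C2 := C2) hP j hW.le hk htp hu
  have h2 := V_top_eq (e' := e0) (C2 := C2) hP j hW.le hL0 htp0 (g.cube_subset hkL hyx hu)
  rw [Ps_apply, h1, h2, ← sum_Ico_consecutive _ hkL hL0]
  ring

variable {nv : N4 g α}

/-- **The births inside a region of a window pay**, any slot. -/
theorem TR_births (hP : Paths w L e F gd V H rs lm) (he0 : 0 ≤ e0)
    (hW : InW w L gd V H rs e0 C2 Λ Wd) (hR : Rgn g Wd L0 x0 ud) (hx : ud L0 x0) (j : J)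
    (A : Fin 4 → ℕ → X → ℝ) (m : Fin 4) {p : ℝ} (hp : 0 ≤ p)
    (hpay : ∀ l < L0, ∀ y ∈ g.cube L0 x0, ud l y → ∀ i, bm (S j) l (H j l) (g.cube l y) i ≠ 0 →
      TR nv (Dn g ud l y) (update A m (st ((S j).a l i))) ≤ p * (w j).ω l l y i * cd g l y) :
    TR nv ud (update A m (fun k u => V j L0 u - V j k u)) ≤ p * e0 * cd g L0 x0 := by
  have h1 : TR nv ud (update A m (fun k u => V j L0 u - V j k u)) =
      TR nv ud (update A m (Ps L0 fun l => birth (S j) l (H j l))) := by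
    refine TR_congr fun k y hy i u hu => ?_
    by_cases hi : i = m
    · subst hi
      rw [update_self, update_self]
      exact V_sub_eq hP hW hR hx j hy hu
    · rw [update_of_ne hi, update_of_ne hi]
  rw [h1, TR_upd (swap_two m)]
  refine (pay_births3 (w := w j) (H := H j) (p := p) (nv.toNV (Equiv.swap m 2)) hR
    fun l hl y hy hu i hi => ?_).trans ?_
  · rw [← TR_upd (swap_two m)]
    exact hpay l hl y hy hu i hi
  · rw [mul_assoc]
    exact mul_le_mul_of_nonneg_left (Cs_lden_le (sub_rgn hP he0 hW hR hx) hx j) hp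

/-- the region below one of its cells -/
theorem dn_sub (hR : Rgn g Wd L0 x0 ud) {l : ℕ} {y : X} (hl : l ≤ L0) (hu : ud l y) :
    Rgn g ud l y (Dn g ud l y) ∧ Dn g ud l y l y := by
  have h := rgn_dn hR hl y
  exact ⟨⟨h.const, h.up, h.bel, fun k z h' => h'.1⟩, hu, le_rfl, g.mem l y⟩

/-- **The role slot pays**: the difference of two residuals of the same data, moving, on a region
of a window, by the atoms of its births. -/
theorem TR_P (hP : Paths w L e F gd V H rs lm) (he0 : 0 ≤ e0)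
    (hW : InW w L gd V H rs e0 C2 Λ Wd) (hR : Rgn g Wd L0 x0 ud) (hx : ud L0 x0) (j0 j1 : J)
    (hF : F j0 = F j1) (A : Fin 4 → ℕ → X → ℝ) (m : Fin 4) {p : ℝ} (hp : 0 ≤ p)
    (hpay : ∀ j, j = j0 ∨ j = j1 → ∀ L' x' ud', Rgn g ud L' x' ud' → ud' L' x' →
      ∀ l, L' ≤ l → l ≤ L → ∀ i,
      TR nv ud' (update A m (st ((S j).a l i))) ≤ p * (w j).ω l L' x' i * cd g L' x') :
    TR nv ud (update A m (fun k u => V j0 k u - V j1 k u)) ≤
      p * (32 * e + 2 * e0) * cd g L0 x0 := by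
  obtain ⟨hg0, hL0, htp0⟩ := hW.win L0 x0 (hR.sub _ _ hx)
  have hL0L : L0 ≤ L := hL0.trans hW.le
  have hcd := H347.cd_pos g L0 x0
  have hself : Rgn g ud L0 x0 ud := ⟨hR.const, hR.up, hR.bel, fun k y h => h⟩
  -- the births alive at the top
  have a1 : ∀ j, j = j0 ∨ j = j1 → TR nv ud (update A m (st (fun y => F j y - V j L0 y))) ≤
      p * (16 * e) * cd g L0 x0 := fun j hj =>
    (TR_alive (hP.path j) hP.gd_const hP.gd_up hR hL0L hg0 A m fun l i h1 h2 =>
      hpay j hj L0 x0 ud hself hx l h1 h2 i).trans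
      (mul_le_mul_of_nonneg_right (mul_le_mul_of_nonneg_left
        ((hP.path j).mass L0 hL0L x0 hg0) hp) hcd.le)
  -- the births inside
  have a2 : ∀ j, j = j0 ∨ j = j1 → TR nv ud (update A m (fun k u => V j L0 u - V j k u)) ≤
      p * e0 * cd g L0 x0 := fun j hj =>
    TR_births hP he0 hW hR hx j A m hp fun l hl y _ hu i _ => by
      obtain ⟨h1, h2⟩ := dn_sub hR hl.le hu
      exact hpay j hj l y _ h1 h2 l le_rfl (by omega) i
  have e1 : TR nv ud (update A m (fun k u => V j0 k u - V j1 k u)) =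
      TR nv ud (update A m ((st (fun y => F j1 y - V j1 L0 y) + (fun k u => V j1 L0 u - V j1 k u)) -
        (st (fun y => F j0 y - V j0 L0 y) + (fun k u => V j0 L0 u - V j0 k u)))) := by
    refine TR_congr fun k y _ i u _ => ?_
    by_cases hi : i = m
    · subst hi
      rw [update_self, update_self]
      show V j0 k u - V j1 k u = (F j1 u - V j1 L0 u + (V j1 L0 u - V j1 k u)) -
        (F j0 u - V j0 L0 u + (V j0 L0 u - V j0 k u))
      rw [hF]
      ring
    · rw [update_of_ne hi, update_of_ne hi]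
  rw [e1]
  have s1 := TR_sub (nv := nv) (ud := ud) A m
    (st (fun y => F j1 y - V j1 L0 y) + (fun k u => V j1 L0 u - V j1 k u))
    (st (fun y => F j0 y - V j0 L0 y) + (fun k u => V j0 L0 u - V j0 k u))
  have s2 := TR_add (nv := nv) (ud := ud) A m (st (fun y => F j1 y - V j1 L0 y))
    (fun k u => V j1 L0 u - V j1 k u)
  have s3 := TR_add (nv := nv) (ud := ud) A m (st (fun y => F j0 y - V j0 L0 y))
    (fun k u => V j0 L0 u - V j0 k u)
  have b1 := a1 j0 (Or.inl rfl)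
  have b2 := a1 j1 (Or.inr rfl)
  have b3 := a2 j0 (Or.inl rfl)
  have b4 := a2 j1 (Or.inr rfl)
  have e2 : p * (32 * e + 2 * e0) * cd g L0 x0 = p * (16 * e) * cd g L0 x0 +
      p * (16 * e) * cd g L0 x0 + p * e0 * cd g L0 x0 + p * e0 * cd g L0 x0 := by ring
  rw [e2]
  linarith

/-- the same in the first slot of the four-slot format -/
theorem T4_P (σ : Equiv.Perm (Fin 4)) (hP : Paths w L e F gd V H rs lm) (he0 : 0 ≤ e0)
    (hW : InW w L gd V H rs e0 C2 Λ Wd) (hR : Rgn g Wd L0 x0 ud) (hx : ud L0 x0) (j0 j1 : J)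
    (hF : F j0 = F j1) (B C D : ℕ → X → ℝ) {p : ℝ} (hp : 0 ≤ p)
    (hpay : ∀ j, j = j0 ∨ j = j1 → ∀ L' x' ud', Rgn g ud L' x' ud' → ud' L' x' →
      ∀ l, L' ≤ l → l ≤ L → ∀ i,
      T4 (nv.toNV σ) ud' (st ((S j).a l i)) B C D ≤ p * (w j).ω l L' x' i * cd g L' x') :
    T4 (nv.toNV σ) ud (fun k u => V j0 k u - V j1 k u) B C D ≤
      p * (32 * e + 2 * e0) * cd g L0 x0 := by
  rw [T4_toNV, ← ord0 σ (st 0) B C D]
  refine TR_P hP he0 hW hR hx j0 j1 hF _ _ hp fun j hj L' x' ud' h1 h2 l h3 h4 i => ?_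
  have h5 := hpay j hj L' x' ud' h1 h2 l h3 h4 i
  rw [T4_toNV, ← ord0 σ (st 0) B C D] at h5
  exact h5

/-! ### The structure `Rnd` -/

/-- **The hypotheses of a round on a window**, the role slot being the first one. -/
theorem rnd_window (σ : Equiv.Perm (Fin 4)) (hP : Paths w L e F gd V H rs lm) (he0 : 0 ≤ e0)
    (hW : InW w L gd V H rs e0 C2 Λ Wd) (j0 j1 : J) (hF : F j0 = F j1) {GP G1 : X → ℝ}
    {S' : Fin 2 → CSys g ι'} {w' : ∀ j, LW (S' j)} {ez Cg p pF r : ℝ} (hpF : 0 ≤ pF)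
    (payX : ∀ L x ud, Rgn g Wd L x ud → ud L x → ∀ Z, En g ud Z ez → ∀ j, L ≤ j → ∀ i,
      T4 (nv.toNV σ) ud (st GP) (st G1) (st ((S' 0).a j i)) (st Z) ≤
        p * (w' 0).ω j L x i * cd g L x)
    (payY : ∀ L x ud, Rgn g Wd L x ud → ud L x → ∀ Z, En g ud Z ez → ∀ j, L ≤ j → ∀ i,
      T4 (nv.toNV σ) ud (st GP) (st G1) (st Z) (st ((S' 1).a j i)) ≤
        p * (w' 1).ω j L x i * cd g L x)
    (finX : ∀ j, j = j0 ∨ j = j1 → ∀ L' x' ud, Rgn g Wd L' x' ud → ud L' x' → ∀ U Z,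
      Un (S' 0) Cg ud U → En g ud U ez → En g ud Z ez → ∀ l, L' ≤ l → l ≤ L → ∀ i,
      T4 (nv.toNV σ) ud (st ((S j).a l i)) (st G1) (st U) (st Z) ≤
        pF * (w j).ω l L' x' i * cd g L' x')
    (finY : ∀ j, j = j0 ∨ j = j1 → ∀ L' x' ud, Rgn g Wd L' x' ud → ud L' x' → ∀ U Z,
      Un (S' 1) Cg ud U → En g ud U ez → En g ud Z ez → ∀ l, L' ≤ l → l ≤ L → ∀ i,
      T4 (nv.toNV σ) ud (st ((S j).a l i)) (st G1) (st Z) (st U) ≤
        pF * (w j).ω l L' x' i * cd g L' x')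
    (mbb : ∀ L x ud, Rgn g Wd L x ud → ud L x → ∀ U Z, En g ud U ez → En g ud Z ez →
      T4 (nv.toNV σ) ud (fun k => GP - fun u => V j0 k u - V j1 k u) (st G1) (st U) (st Z) ≤
        r * cd g L x) :
    Rnd (nv.toNV σ) Wd GP G1 (fun k u => V j0 k u - V j1 k u) S' w' ez Cg p
      (pF * (32 * e + 2 * e0)) r := by
  have sub : ∀ {L1 L2 : ℕ} {x1 x2 : X} {ud1 ud2 : ℕ → X → Prop}, Rgn g Wd L1 x1 ud1 →
      Rgn g ud1 L2 x2 ud2 → Rgn g Wd L2 x2 ud2 := fun h1 h2 =>
    ⟨h2.const, h2.up, h2.bel, fun k y h => h1.sub k y (h2.sub k y h)⟩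
  refine ⟨payX, payY, ?_, ?_, mbb⟩
  · intro L' x' ud hR hx U Z hU hEU hEZ
    refine T4_P σ hP he0 hW hR hx j0 j1 hF _ _ _ hpF fun j hj L'' x'' ud'' h1 h2 l h3 h4 i => ?_
    exact finX j hj L'' x'' ud'' (sub hR h1) h2 U Z (fun k y h => hU k y (h1.sub k y h))
      (fun k y h => hEU k y (h1.sub k y h)) (fun k y h => hEZ k y (h1.sub k y h)) l h3 h4 i
  · intro L' x' ud hR hx U Z hU hEU hEZ
    refine T4_P σ hP he0 hW hR hx j0 j1 hF _ _ _ hpF fun j hj L'' x'' ud'' h1 h2 l h3 h4 i => ?_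
    exact finY j hj L'' x'' ud'' (sub hR h1) h2 U Z (fun k y h => hU k y (h1.sub k y h))
      (fun k y h => hEU k y (h1.sub k y h)) (fun k y h => hEZ k y (h1.sub k y h)) l h3 h4 i

end

end Vale.Agent.P141.H501
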