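import Vale.Agent.P141.H501.RndI
import Vale.Agent.P141.PL.H855.PayDefs
import Vale.Agent.P141.H610.MovH
import Vale.Agent.P141.H297.SlotW

/-!
# P141, line W, PROC (S9): the hypotheses of the rounds on a window, from `PayU`

`rnd_payU`: the structure `H8.Rnd` on the stage-0 window with the top `(Λ, z)`, for the role
`P = V (jo m) - V (jn m)`, `GP = Ue (jo m) - Ue (jn m)`, from the static payments `PayU` and the
black box `BoxHyp`.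
-/

namespace Vale.Agent.P141.H501

open Finset Function
open Vale.Agent.P141.PL.H571 (W)
open Vale.Agent.P141.PL.H95 (gr)
open Vale.Agent.P141.H315 Vale.Agent.P141.PL.H318 Vale.Agent.P141.H347 Vale.Agent.P141.H297
open Vale.Agent.P141.H8 Vale.Agent.P141.PL.H855 Vale.Agent.P141.H935
open Vale.Agent.P141.H610 (BoxHyp mbb_of_box cutR cd_gr en_sub en_Ue un_Ue)

noncomputable section

open scoped Classical

section gen

variable {X ι κ κ' α : Type*} {g : Grid X}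

/-- the last two slots of the order `σ` -/
def sl2 (σ : Equiv.Perm (Fin 4)) (i : Fin 2) : Fin 4 := σ.symm (![2, 3] i)

theorem st_ord (σ : Equiv.Perm (Fin 4)) (a b c d : X → ℝ) :
    (fun l => st (![a, b, c, d] (σ l))) = fun l => ![st a, st b, st c, st d] (σ l) := by
  funext l
  generalize σ l = m
  fin_cases m <;> rfl

theorem nodup_ord (σ : Equiv.Perm (Fin 4)) {a b c d : Fin 4} (h : [a, b, c, d].Nodup) :
    [σ.symm a, σ.symm b, σ.symm c, σ.symm d].Nodup := by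
  have h1 := h.map σ.symm.injective
  simpa using h1

variable {nv : N4 g α} {gd : ℕ → X → Prop} {L : ℕ} {S : Fin 4 → CSys g ι} {w : ∀ m, LW (S m)}
  {UA : Fin 4 → CSys g κ} {UB : Fin 4 → CSys g κ'} {CA CB EA EB EZ c : ℝ}

/-- the payments in the order `σ`, payer in the slot `0` -/
theorem PayU.T4_0 (h : PayU nv gd L w UA UB CA CB EA EB EZ c) (σ : Equiv.Perm (Fin 4))
    {Λ : ℕ} {x : X} {ud : ℕ → X → Prop} (hΛ : Λ ≤ L) (hR : Rgn g gd Λ x ud) (hx : ud Λ x)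
    {a b d : Fin 4} (hn : [(0 : Fin 4), a, b, d].Nodup) {B C D : X → ℝ}
    (h1 : En g ud (![0, B, C, D] a) EA) (h2 : Un (UA (σ.symm a)) CA ud (![0, B, C, D] a))
    (h3 : En g ud (![0, B, C, D] b) EB) (h4 : Un (UB (σ.symm b)) CB ud (![0, B, C, D] b))
    {ez : ℝ} (hz0 : 0 ≤ ez) (hz : ez ≤ EZ) (h5 : En g ud (![0, B, C, D] d) ez) {j : ℕ}
    (hj : Λ ≤ j) (hjL : j ≤ L) (i : ι) :
    T4 (nv.toNV σ) ud (st ((S (σ.symm 0)).a j i)) (st B) (st C) (st D) ≤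
      c * √ez * (w (σ.symm 0)).ω j Λ x i * cd g Λ x := by
  have key := h (σ.symm 0) (σ.symm a) (σ.symm b) (σ.symm d) (nodup_ord σ hn) Λ x ud hΛ hR hx
    (fun l => ![0, B, C, D] (σ l)) (by simpa using h1) (by simpa using h2) (by simpa using h3)
    (by simpa using h4) ez hz0 hz (by simpa using h5) j hj hjL i
  rw [st_ord, ord0] at key
  rwa [T4_toNV]

/-- the payments in the order `σ`, payer in the slot `2` -/
theorem PayU.T4_2 (h : PayU nv gd L w UA UB CA CB EA EB EZ c) (σ : Equiv.Perm (Fin 4))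
    {Λ : ℕ} {x : X} {ud : ℕ → X → Prop} (hΛ : Λ ≤ L) (hR : Rgn g gd Λ x ud) (hx : ud Λ x)
    {a b d : Fin 4} (hn : [(2 : Fin 4), a, b, d].Nodup) {A B D : X → ℝ}
    (h1 : En g ud (![A, B, 0, D] a) EA) (h2 : Un (UA (σ.symm a)) CA ud (![A, B, 0, D] a))
    (h3 : En g ud (![A, B, 0, D] b) EB) (h4 : Un (UB (σ.symm b)) CB ud (![A, B, 0, D] b))
    {ez : ℝ} (hz0 : 0 ≤ ez) (hz : ez ≤ EZ) (h5 : En g ud (![A, B, 0, D] d) ez) {j : ℕ}
    (hj : Λ ≤ j) (hjL : j ≤ L) (i : ι) :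
    T4 (nv.toNV σ) ud (st A) (st B) (st ((S (σ.symm 2)).a j i)) (st D) ≤
      c * √ez * (w (σ.symm 2)).ω j Λ x i * cd g Λ x := by
  have key := h (σ.symm 2) (σ.symm a) (σ.symm b) (σ.symm d) (nodup_ord σ hn) Λ x ud hΛ hR hx
    (fun l => ![A, B, 0, D] (σ l)) (by simpa using h1) (by simpa using h2) (by simpa using h3)
    (by simpa using h4) ez hz0 hz (by simpa using h5) j hj hjL i
  rw [st_ord, ord2] at key
  rwa [T4_toNV]

/-- the payments in the order `σ`, payer in the slot `3` -/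
theorem PayU.T4_3 (h : PayU nv gd L w UA UB CA CB EA EB EZ c) (σ : Equiv.Perm (Fin 4))
    {Λ : ℕ} {x : X} {ud : ℕ → X → Prop} (hΛ : Λ ≤ L) (hR : Rgn g gd Λ x ud) (hx : ud Λ x)
    {a b d : Fin 4} (hn : [(3 : Fin 4), a, b, d].Nodup) {A B C : X → ℝ}
    (h1 : En g ud (![A, B, C, 0] a) EA) (h2 : Un (UA (σ.symm a)) CA ud (![A, B, C, 0] a))
    (h3 : En g ud (![A, B, C, 0] b) EB) (h4 : Un (UB (σ.symm b)) CB ud (![A, B, C, 0] b))
    {ez : ℝ} (hz0 : 0 ≤ ez) (hz : ez ≤ EZ) (h5 : En g ud (![A, B, C, 0] d) ez) {j : ℕ}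
    (hj : Λ ≤ j) (hjL : j ≤ L) (i : ι) :
    T4 (nv.toNV σ) ud (st A) (st B) (st C) (st ((S (σ.symm 3)).a j i)) ≤
      c * √ez * (w (σ.symm 3)).ω j Λ x i * cd g Λ x := by
  have key := h (σ.symm 3) (σ.symm a) (σ.symm b) (σ.symm d) (nodup_ord σ hn) Λ x ud hΛ hR hx
    (fun l => ![A, B, C, 0] (σ l)) (by simpa using h1) (by simpa using h2) (by simpa using h3)
    (by simpa using h4) ez hz0 hz (by simpa using h5) j hj hjL i
  rw [st_ord, ord3] at key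
  rwa [T4_toNV]

theorem En.sub_rgn {gd ud : ℕ → X → Prop} {L : ℕ} {x : X} (hR : Rgn g gd L x ud) {F : X → ℝ}
    {c : ℝ} (h : En g gd F c) : En g ud F c := fun k y hy => h k y (hR.sub k y hy)

theorem Un.sub_rgn {S : CSys g ι} {gd ud : ℕ → X → Prop} {L : ℕ} {x : X}
    (hR : Rgn g gd L x ud) {F : X → ℝ} {c : ℝ} (h : Un S c gd F) : Un S c ud F :=
  fun k y hy => h k y (hR.sub k y hy)

end gen

/-! ### The instance -/

variable {ι ι' κ α : Type*} {s : ℤ} {J : Type*} [Fintype J] {S : J → CSys (gr 7 s) ι}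
  {w : ∀ j, LW (S j)} {L : ℕ} {e : ℝ} {F : J → ℤ → ℝ} {gd : ℕ → ℤ → Prop}
  {V H : J → ℕ → ℤ → ℝ} {rs : J → ℕ → ℤ → Prop} {lm : J → ℕ → ℤ → ℝ} {e0 C2 : ℝ}
  {Λ : ℕ} {z : ℤ} {nv : N4 (gr 7 s) α} {UA : Fin 4 → CSys (gr 7 s) κ}
  {R : Fin 4 → CSys (gr 7 s) ι'} {wR : ∀ m, LW (R m)}

/-- the size of the slot `V k - U` (`H297/SlotW`) -/
def szT (C2 Cg e0 Kb θ : ℝ) (n : ℕ) : ℝ :=
  68 * √((4 * (2 * C2 + 3) + 2 * (1 + 2 * Cg)) * e0) +
    Cdig0 C2 (8 + 8 * n) θ * √e0 * (Kb * √e0) ^ θ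

/-- **The slot** `GP - P k`. -/
theorem slot_GP (hP : Paths w L e F gd V H rs lm) (he0 : 0 < e0) (hΛ : Λ ≤ L) {Cg : ℝ}
    (hM : ∀ j, Mix (S j) Cg) (hC : 0 ≤ Cg) (hC2 : 4 * Fintype.card J * (1 + 2 * Cg) ≤ C2)
    {Kb θ : ℝ} (hKb : 0 < Kb) (hS : ∀ j, L2W (w j) Kb) (hθ0 : 0 < θ) (hθ1 : θ ≤ 1) (j0 j1 : J)
    {L0 : ℕ} {x0 : ℤ} {ud : ℕ → ℤ → Prop}
    (hR : Rgn (gr 7 s) (Wr (gr 7 s) gd (tp w L gd V H rs e0 C2) Λ z) L0 x0 ud) (hx : ud L0 x0) :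
    CSlot0 s L0 (cutR ud fun k => (fun y => Ue w L gd V H rs e0 C2 j0 Λ y -
      Ue w L gd V H rs e0 C2 j1 Λ y) - fun u => V j0 k u - V j1 k u)
      (2 * szT C2 Cg e0 Kb θ (Fintype.card J)) := by
  have hL0 : L0 ≤ Λ := (hR.sub _ _ hx).2.1
  have h1 := slotTh hP he0 hΛ hL0 hR hM hC hC2 j1 hKb (hS j1) hθ0 hθ1
  have h2 := slotTh hP he0 hΛ hL0 hR hM hC hC2 j0 hKb (hS j0) hθ0 hθ1
  refine ((h1.sub h2).congr fun k _ y => ?_).mono (le_of_eq ?_)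
  · unfold cutR
    split_ifs
    · simp only [Pi.sub_apply]
      ring
    · rw [sub_zero]
  · unfold szT
    ring

/-- **(S9)** the hypotheses of a round on the stage-0 window. -/
theorem rnd_payU (σ : Equiv.Perm (Fin 4)) (hP : Paths w L e F gd V H rs lm) (he0 : 0 < e0)
    (hΛ : Λ ≤ L) {Cm : ℝ} (hM : ∀ j, Mix (S j) Cm) (hC : 0 ≤ Cm)
    (hC2 : 4 * Fintype.card J * (1 + 2 * Cm) ≤ C2) {Kb θ : ℝ} (hKb : 0 < Kb)
    (hS : ∀ j, L2W (w j) Kb) (hθ0 : 0 < θ) (hθ1 : θ ≤ 1) (jo jn : Fin 4 → J)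
    (hF : F (jo (σ.symm 0)) = F (jn (σ.symm 0)))
    {G1 : ℤ → ℝ} {CA EA CP ez Cg c2 c3 : ℝ} (hEA : 0 < EA) (hez : 0 < ez) (hc3 : 0 ≤ c3)
    (hb : BoxHyp nv (Wr (gr 7 s) gd (tp w L gd V H rs e0 C2) Λ z) CP)
    (hGe : En (gr 7 s) (Wr (gr 7 s) gd (tp w L gd V H rs e0 C2) Λ z) (fun y =>
      Ue w L gd V H rs e0 C2 (jo (σ.symm 0)) Λ y - Ue w L gd V H rs e0 C2 (jn (σ.symm 0)) Λ y) EA)
    (hGu : Un (UA (σ.symm 0)) CA (Wr (gr 7 s) gd (tp w L gd V H rs e0 C2) Λ z) (fun y =>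
      Ue w L gd V H rs e0 C2 (jo (σ.symm 0)) Λ y - Ue w L gd V H rs e0 C2 (jn (σ.symm 0)) Λ y))
    (h1e : En (gr 7 s) (Wr (gr 7 s) gd (tp w L gd V H rs e0 C2) Λ z) G1 EA)
    (h1u : Un (UA (σ.symm 1)) CA (Wr (gr 7 s) gd (tp w L gd V H rs e0 C2) Λ z) G1)
    (H2 : ∀ L', PayU nv (Wr (gr 7 s) gd (tp w L gd V H rs e0 C2) Λ z) L' wR UA UA CA CA EA EA
      ez c2)
    (H3o : PayU nv (Wr (gr 7 s) gd (tp w L gd V H rs e0 C2) Λ z) L (fun m => w (jo m)) UA R CA Cg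
      EA ez ez c3)
    (H3n : PayU nv (Wr (gr 7 s) gd (tp w L gd V H rs e0 C2) Λ z) L (fun m => w (jn m)) UA R CA Cg
      EA ez ez c3) :
    Rnd (nv.toNV σ) (Wr (gr 7 s) gd (tp w L gd V H rs e0 C2) Λ z) (fun y =>
      Ue w L gd V H rs e0 C2 (jo (σ.symm 0)) Λ y - Ue w L gd V H rs e0 C2 (jn (σ.symm 0)) Λ y) G1
      (fun k u => V (jo (σ.symm 0)) k u - V (jn (σ.symm 0)) k u) (fun i => R (sl2 σ i))
      (fun i => wR (sl2 σ i)) ez Cg (c2 * √ez) (c3 * √ez * (32 * e + 2 * e0))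
      (CP * (2 * szT C2 Cm e0 Kb θ (Fintype.card J) * (68 * √EA) * (68 ^ 2 * ez)) / 128) := by
  set Wd : ℕ → ℤ → Prop := Wr (gr 7 s) gd (tp w L gd V H rs e0 C2) Λ z with hWd
  have hW : InW w L gd V H rs e0 C2 Λ Wd := inW_wr (fun _ _ h => h) hΛ z
  refine rnd_window σ hP he0.le hW _ _ hF (mul_nonneg hc3 (Real.sqrt_nonneg _)) ?_ ?_ ?_ ?_ ?_
  · intro L' x ud hR hx Z hZ j hj i
    exact PayU.T4_2 (H2 j) σ hj hR hx (a := 0) (b := 1) (d := 3) (by decide)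
      (En.sub_rgn hR hGe) (Un.sub_rgn hR hGu) (En.sub_rgn hR h1e) (Un.sub_rgn hR h1u) hez.le
      le_rfl hZ hj le_rfl i
  · intro L' x ud hR hx Z hZ j hj i
    exact PayU.T4_3 (H2 j) σ hj hR hx (a := 0) (b := 1) (d := 2) (by decide)
      (En.sub_rgn hR hGe) (Un.sub_rgn hR hGu) (En.sub_rgn hR h1e) (Un.sub_rgn hR h1u) hez.le
      le_rfl hZ hj le_rfl i
  · rintro j (rfl | rfl) L' x' ud hR hx U Z hU hUe hZe l hl hlL i
    · exact PayU.T4_0 H3o σ (hl.trans hlL) hR hx (a := 1) (b := 2) (d := 3) (by decide)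
        (En.sub_rgn hR h1e) (Un.sub_rgn hR h1u) hUe hU hez.le le_rfl hZe hl hlL i
    · exact PayU.T4_0 H3n σ (hl.trans hlL) hR hx (a := 1) (b := 2) (d := 3) (by decide)
        (En.sub_rgn hR h1e) (Un.sub_rgn hR h1u) hUe hU hez.le le_rfl hZe hl hlL i
  · rintro j (rfl | rfl) L' x' ud hR hx U Z hU hUe hZe l hl hlL i
    · exact PayU.T4_0 H3o σ (hl.trans hlL) hR hx (a := 1) (b := 3) (d := 2) (by decide)
        (En.sub_rgn hR h1e) (Un.sub_rgn hR h1u) hUe hU hez.le le_rfl hZe hl hlL i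
    · exact PayU.T4_0 H3n σ (hl.trans hlL) hR hx (a := 1) (b := 3) (d := 2) (by decide)
        (En.sub_rgn hR h1e) (Un.sub_rgn hR h1u) hUe hU hez.le le_rfl hZe hl hlL i
  · intro L' x ud hR hx U Z hU hZ
    exact mbb_of_box hb σ hEA hez (fun L1 x1 ud1 hR1 hx1 =>
      slot_GP hP he0 hΛ hM hC hC2 hKb hS hθ0 hθ1 _ _ hR1 hx1) h1e hR hx hU hZ

end

end Vale.Agent.P141.H501
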