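import Vale.Agent.P141.H501.RndP
import Vale.Agent.P141.PL.H855.EndDefs

/-!
# P141, line W, PROC (S9), everything static

The role function is the static `P = V j0 Λ - V j1 Λ` of the stage-0 window with the top `(Λ, z)`.
`atS_win`: on every sub-region the data minus the value at the top of the window is a combination
of atoms of local mass at most `16 e + e0`.
`rnd_payU_st`: the structure `H8.Rnd`; `endIn_win`: the input of END on every sub-region.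
-/

namespace Vale.Agent.P141.H501

open Finset Function
open Vale.Agent.P141.PL.H571 (W)
open Vale.Agent.P141.PL.H95 (gr)
open Vale.Agent.P141.H315 Vale.Agent.P141.PL.H318 Vale.Agent.P141.H347 Vale.Agent.P141.H297
open Vale.Agent.P141.H8 Vale.Agent.P141.PL.H855 Vale.Agent.P141.H935
open Vale.Agent.P141.H610 (BoxHyp mbb_of_box cutR cd_gr en_sub en_Ue un_Ue en_sub_Ue)

noncomputable section

open scoped Classical

section gen

variable {X ι ι' κ α : Type*} {g : Grid X} {J : Type*} [Fintype J] {S : J → CSys g ι}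
  {w : ∀ j, LW (S j)} {L : ℕ} {e : ℝ} {F : J → X → ℝ} {gd : ℕ → X → Prop}
  {V H : J → ℕ → X → ℝ} {rs : J → ℕ → X → Prop} {lm : J → ℕ → X → ℝ} {e0 C2 : ℝ}
  {ud Wd : ℕ → X → Prop} {Λ L0 : ℕ} {x0 : X} {nv : N4 g α}

/-- **Data minus the value at the top of the window**, on a cell of the window. -/
theorem atS_win (hP : Paths w L e F gd V H rs lm) (he0 : 0 ≤ e0)
    (hW : InW w L gd V H rs e0 C2 Λ Wd) (hx : Wd L0 x0) (j : J) :
    AtS (w j) L L0 x0 (16 * e + e0) fun y => F j y - V j Λ y := by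
  obtain ⟨hg0, hL0, htp0⟩ := hW.win L0 x0 hx
  have hL0L : L0 ≤ L := hL0.trans hW.le
  have h1 : AtS (w j) L L0 x0 (16 * e) fun y => F j y - V j L0 y :=
    (atS_alive (hP.path j) hP.gd_const hP.gd_up hL0L hg0).mono
      ((hP.path j).mass L0 hL0L x0 hg0)
  have h2 : AtS (w j) L L0 x0 e0 fun y => V j Λ y - V j L0 y :=
    (atS_sum (w := w j) (G := H j) (P := fun y => V j Λ y - V j L0 y) hW.le fun y hy => by
      rw [V_top_eq (e' := e0) (C2 := C2) hP j hW.le hL0 htp0 hy]; ring).mono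
      (local_mass hP j he0 hW.le hL0 htp0)
  exact (h1.sub h2).congr fun y _ => by ring

/-- **The static role function pays**, any slot, any companions. -/
theorem TR_Ps (hP : Paths w L e F gd V H rs lm) (he0 : 0 ≤ e0)
    (hW : InW w L gd V H rs e0 C2 Λ Wd) (hR : Rgn g Wd L0 x0 ud) (hx : ud L0 x0) (j0 j1 : J)
    (hF : F j0 = F j1) (A : Fin 4 → ℕ → X → ℝ) (m : Fin 4) {p : ℝ} (hp : 0 ≤ p)
    (hpay : ∀ j, j = j0 ∨ j = j1 → ∀ l, L0 ≤ l → l ≤ L → ∀ i,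
      TR nv ud (update A m (st ((S j).a l i))) ≤ p * (w j).ω l L0 x0 i * cd g L0 x0) :
    TR nv ud (update A m (st fun y => V j0 Λ y - V j1 Λ y)) ≤
      p * (32 * e + 2 * e0) * cd g L0 x0 := by
  have a1 : ∀ j, j = j0 ∨ j = j1 → TR nv ud (update A m (st (fun y => F j y - V j Λ y))) ≤
      p * (16 * e + e0) * cd g L0 x0 := fun j hj =>
    TR_atS hR (atS_win hP he0 hW (hR.sub _ _ hx) j) A m hp fun l i h1 h2 => hpay j hj l h1 h2 i
  have e1 : TR nv ud (update A m (st fun y => V j0 Λ y - V j1 Λ y)) =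
      TR nv ud (update A m (st (fun y => F j1 y - V j1 Λ y) - st (fun y => F j0 y - V j0 Λ y))) := by
    refine TR_congr fun k y _ i u _ => ?_
    by_cases hi : i = m
    · subst hi
      rw [update_self, update_self]
      show V j0 Λ u - V j1 Λ u = (F j1 u - V j1 Λ u) - (F j0 u - V j0 Λ u)
      rw [hF]
      ring
    · rw [update_of_ne hi, update_of_ne hi]
  rw [e1]
  have s1 := TR_sub (nv := nv) (ud := ud) A m (st (fun y => F j1 y - V j1 Λ y))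
    (st (fun y => F j0 y - V j0 Λ y))
  have b1 := a1 j0 (Or.inl rfl)
  have b2 := a1 j1 (Or.inr rfl)
  have e2 : p * (32 * e + 2 * e0) * cd g L0 x0 = p * (16 * e + e0) * cd g L0 x0 +
      p * (16 * e + e0) * cd g L0 x0 := by ring
  rw [e2]
  linarith

/-- the same in the first slot of the four-slot format -/
theorem T4_Ps (σ : Equiv.Perm (Fin 4)) (hP : Paths w L e F gd V H rs lm) (he0 : 0 ≤ e0)
    (hW : InW w L gd V H rs e0 C2 Λ Wd) (hR : Rgn g Wd L0 x0 ud) (hx : ud L0 x0) (j0 j1 : J)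
    (hF : F j0 = F j1) (B C D : ℕ → X → ℝ) {p : ℝ} (hp : 0 ≤ p)
    (hpay : ∀ j, j = j0 ∨ j = j1 → ∀ l, L0 ≤ l → l ≤ L → ∀ i,
      T4 (nv.toNV σ) ud (st ((S j).a l i)) B C D ≤ p * (w j).ω l L0 x0 i * cd g L0 x0) :
    T4 (nv.toNV σ) ud (st fun y => V j0 Λ y - V j1 Λ y) B C D ≤
      p * (32 * e + 2 * e0) * cd g L0 x0 := by
  rw [T4_toNV, ← ord0 σ (st 0) B C D]
  refine TR_Ps hP he0 hW hR hx j0 j1 hF _ _ hp fun j hj l h3 h4 i => ?_
  have h5 := hpay j hj l h3 h4 i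
  rw [T4_toNV, ← ord0 σ (st 0) B C D] at h5
  exact h5

end gen

/-! ### The instance -/

variable {ι ι' κ α : Type*} {s : ℤ} {J : Type*} [Fintype J] {S : J → CSys (gr 7 s) ι}
  {w : ∀ j, LW (S j)} {L : ℕ} {e : ℝ} {F : J → ℤ → ℝ} {gd : ℕ → ℤ → Prop}
  {V H : J → ℕ → ℤ → ℝ} {rs : J → ℕ → ℤ → Prop} {lm : J → ℕ → ℤ → ℝ} {e0 C2 : ℝ}
  {Λ : ℕ} {z : ℤ} {nv : N4 (gr 7 s) α} {UA : Fin 4 → CSys (gr 7 s) κ}
  {R : Fin 4 → CSys (gr 7 s) ι'} {wR : ∀ m, LW (R m)}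

/-- the size of the slot `V Λ - U` (`H297/SlotW`) -/
def szX (C2 Cg e0 : ℝ) : ℝ := 68 * √((4 * (2 * C2 + 3) + 2 * (1 + 2 * Cg)) * e0)

/-- **The slot** `GP - P`, static. -/
theorem slot_GPs (hP : Paths w L e F gd V H rs lm) (he0 : 0 < e0) (hΛ : Λ ≤ L) {Cg : ℝ}
    (hM : ∀ j, Mix (S j) Cg) (hC : 0 ≤ Cg) (hC2 : 0 ≤ C2) (j0 j1 : J)
    {L0 : ℕ} {x0 : ℤ} {ud : ℕ → ℤ → Prop}
    (hR : Rgn (gr 7 s) (Wr (gr 7 s) gd (tp w L gd V H rs e0 C2) Λ z) L0 x0 ud) :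
    CSlot0 s L0 (cutR ud fun k => (fun y => Ue w L gd V H rs e0 C2 j0 Λ y -
      Ue w L gd V H rs e0 C2 j1 Λ y) - st (fun u => V j0 Λ u - V j1 Λ u) k)
      (2 * szX C2 Cg e0) := by
  have h1 := slotX hP he0 hΛ hR hC2 j1 (hM j1) hC
  have h2 := slotX hP he0 hΛ hR hC2 j0 (hM j0) hC
  refine ((h1.sub h2).congr fun k _ y => ?_).mono (le_of_eq ?_)
  · unfold cutR
    split_ifs
    · simp only [Pi.sub_apply, st]
      ring
    · rw [sub_zero]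
  · unfold szX
    ring

/-- **(S9)** the hypotheses of a round on the stage-0 window, the role function being static. -/
theorem rnd_payU_st (σ : Equiv.Perm (Fin 4)) (hP : Paths w L e F gd V H rs lm) (he0 : 0 < e0)
    (hΛ : Λ ≤ L) {Cm : ℝ} (hM : ∀ j, Mix (S j) Cm) (hC : 0 ≤ Cm) (hC2 : 0 ≤ C2)
    (jo jn : Fin 4 → J) (hF : F (jo (σ.symm 0)) = F (jn (σ.symm 0)))
    {G1 : ℤ → ℝ} {CA EA CP ez Cg c2 c3 : ℝ} (hEA : 0 < EA) (hez : 0 < ez) (hc3 : 0 ≤ c3)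
    (hb : BoxHyp nv (Wr (gr 7 s) gd (tp w L gd V H rs e0 C2) Λ z) CP)
    (hGe : En (gr 7 s) (Wr (gr 7 s) gd (tp w L gd V H rs e0 C2) Λ z) (fun y =>
      Ue w L gd V H rs e0 C2 (jo (σ.symm 0)) Λ y - Ue w L gd V H rs e0 C2 (jn (σ.symm 0)) Λ y) EA)
    (hGu : Un (UA (σ.symm 0)) CA (Wr (gr 7 s) gd (tp w L gd V H rs e0 C2) Λ z) (fun y =>
      Ue w L gd V H rs e0 C2 (jo (σ.symm 0)) Λ y - Ue w L gd V H rs e0 C2 (jn (σ.symm 0)) Λ y))
    (h1e : En (gr 7 s) (Wr (gr 7 s) gd (tp w L gd V H rs e0 C2) Λ z) G1 EA)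
    (h1u : Un (UA (σ.symm 1)) CA (Wr (gr 7 s) gd (tp w L gd V H rs e0 C2) Λ z) G1)
    (H2 : ∀ L', PayU nv (Wr (gr 7 s) gd (tp w L gd V H rs e0 C2) Λ z) L' wR UA UA CA CA EA EA
      ez c2)
    (H3o : PayU nv (Wr (gr 7 s) gd (tp w L gd V H rs e0 C2) Λ z) L (fun m => w (jo m)) UA R CA Cg
      EA ez ez c3)
    (H3n : PayU nv (Wr (gr 7 s) gd (tp w L gd V H rs e0 C2) Λ z) L (fun m => w (jn m)) UA R CA Cg
      EA ez ez c3) :
    Rnd (nv.toNV σ) (Wr (gr 7 s) gd (tp w L gd V H rs e0 C2) Λ z) (fun y =>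
      Ue w L gd V H rs e0 C2 (jo (σ.symm 0)) Λ y - Ue w L gd V H rs e0 C2 (jn (σ.symm 0)) Λ y) G1
      (st fun u => V (jo (σ.symm 0)) Λ u - V (jn (σ.symm 0)) Λ u) (fun i => R (sl2 σ i))
      (fun i => wR (sl2 σ i)) ez Cg (c2 * √ez) (c3 * √ez * (32 * e + 2 * e0))
      (CP * (2 * szX C2 Cm e0 * (68 * √EA) * (68 ^ 2 * ez)) / 128) := by
  set Wd : ℕ → ℤ → Prop := Wr (gr 7 s) gd (tp w L gd V H rs e0 C2) Λ z with hWd
  have hW : InW w L gd V H rs e0 C2 Λ Wd := inW_wr (fun _ _ h => h) hΛ z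
  have hq := mul_nonneg hc3 (Real.sqrt_nonneg ez)
  refine ⟨?_, ?_, ?_, ?_, ?_⟩
  · intro L' x ud hR hx Z hZ j hj i
    exact PayU.T4_2 (H2 j) σ hj hR hx (a := 0) (b := 1) (d := 3) (by decide)
      (En.sub_rgn hR hGe) (Un.sub_rgn hR hGu) (En.sub_rgn hR h1e) (Un.sub_rgn hR h1u) hez.le
      le_rfl hZ hj le_rfl i
  · intro L' x ud hR hx Z hZ j hj i
    exact PayU.T4_3 (H2 j) σ hj hR hx (a := 0) (b := 1) (d := 2) (by decide)
      (En.sub_rgn hR hGe) (Un.sub_rgn hR hGu) (En.sub_rgn hR h1e) (Un.sub_rgn hR h1u) hez.le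
      le_rfl hZ hj le_rfl i
  · intro L' x' ud hR hx U Z hU hUe hZe
    refine T4_Ps σ hP he0.le hW hR hx _ _ hF _ _ _ hq ?_
    rintro j (rfl | rfl) l hl hlL i
    · exact PayU.T4_0 H3o σ (hl.trans hlL) hR hx (a := 1) (b := 2) (d := 3) (by decide)
        (En.sub_rgn hR h1e) (Un.sub_rgn hR h1u) hUe hU hez.le le_rfl hZe hl hlL i
    · exact PayU.T4_0 H3n σ (hl.trans hlL) hR hx (a := 1) (b := 2) (d := 3) (by decide)
        (En.sub_rgn hR h1e) (Un.sub_rgn hR h1u) hUe hU hez.le le_rfl hZe hl hlL i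
  · intro L' x' ud hR hx U Z hU hUe hZe
    refine T4_Ps σ hP he0.le hW hR hx _ _ hF _ _ _ hq ?_
    rintro j (rfl | rfl) l hl hlL i
    · exact PayU.T4_0 H3o σ (hl.trans hlL) hR hx (a := 1) (b := 3) (d := 2) (by decide)
        (En.sub_rgn hR h1e) (Un.sub_rgn hR h1u) hUe hU hez.le le_rfl hZe hl hlL i
    · exact PayU.T4_0 H3n σ (hl.trans hlL) hR hx (a := 1) (b := 3) (d := 2) (by decide)
        (En.sub_rgn hR h1e) (Un.sub_rgn hR h1u) hUe hU hez.le le_rfl hZe hl hlL i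
  · intro L' x ud hR hx U Z hU hZ
    exact mbb_of_box hb σ hEA hez (fun L1 x1 ud1 hR1 hx1 =>
      slot_GPs hP he0 hΛ hM hC hC2 _ _ hR1) h1e hR hx hU hZ

/-- **The input of END** on every sub-region of the stage-0 window: `M = 16 e + e0`. -/
theorem endIn_win (hP : Paths w L e F gd V H rs lm) (he0 : 0 ≤ e0)
    (hΛ : Λ ≤ L) {Cm : ℝ} (hM : ∀ j, Mix (S j) Cm) (hC : 0 ≤ Cm) (hC2 : 0 ≤ C2)
    (jo jn : Fin 4 → J) (i a : Fin 4) (hF : F (jo i) = F (jn i))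
    {G1 : ℤ → ℝ} {C : ℝ} (hCC : 4 * (4 * (2 * C2 + 3) + 2 * (1 + 2 * Cm)) ≤ C)
    (hGe : En (gr 7 s) (Wr (gr 7 s) gd (tp w L gd V H rs e0 C2) Λ z) (fun y =>
      Ue w L gd V H rs e0 C2 (jo i) Λ y - Ue w L gd V H rs e0 C2 (jn i) Λ y) C)
    (hGu : Un (UA i) C (Wr (gr 7 s) gd (tp w L gd V H rs e0 C2) Λ z) (fun y =>
      Ue w L gd V H rs e0 C2 (jo i) Λ y - Ue w L gd V H rs e0 C2 (jn i) Λ y))
    (h1e : En (gr 7 s) (Wr (gr 7 s) gd (tp w L gd V H rs e0 C2) Λ z) G1 C)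
    (h1u : Un (UA a) C (Wr (gr 7 s) gd (tp w L gd V H rs e0 C2) Λ z) G1)
    {L0 : ℕ} {x0 : ℤ} {ud : ℕ → ℤ → Prop}
    (hR : Rgn (gr 7 s) (Wr (gr 7 s) gd (tp w L gd V H rs e0 C2) Λ z) L0 x0 ud)
    (hx : ud L0 x0) :
    EndIn (fun m => w (jo m)) (fun m => w (jn m)) UA L L0 x0 ud i a (16 * e + e0) C e0
      (fun u => V (jo i) Λ u - V (jn i) Λ u) G1 := by
  set Wd : ℕ → ℤ → Prop := Wr (gr 7 s) gd (tp w L gd V H rs e0 C2) Λ z with hWd
  have hW : InW w L gd V H rs e0 C2 Λ Wd := inW_wr (fun _ _ h => h) hΛ z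
  have a1 := atS_win hP he0 hW (hR.sub _ _ hx) (jo i)
  have a2 := atS_win hP he0 hW (hR.sub _ _ hx) (jn i)
  have b1 := en_sub_Ue hP hΛ (jo i) (hM (jo i)) hC (Vale.Agent.P141.PL.H855.cd_gr_succ s) he0 hC2 z
  have b2 := en_sub_Ue hP hΛ (jn i) (hM (jn i)) hC (Vale.Agent.P141.PL.H855.cd_gr_succ s) he0 hC2 z
  refine ⟨⟨_, _, a1.neg, a2.neg, fun y _ => ?_⟩, ⟨_, _, ?_, Un.sub_rgn hR hGu,
    En.sub_rgn hR hGe, En.sub_rgn hR (En.mono (en_sub b1 b2) ?_)⟩, Un.sub_rgn hR h1u,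
    En.sub_rgn hR h1e⟩
  · rw [hF]; ring
  · intro y _
    simp only [Pi.sub_apply]
    ring
  · nlinarith [mul_le_mul_of_nonneg_right hCC he0]

end

end Vale.Agent.P141.H501
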