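import Vale.Agent.P141.H408.SkelTI
import Vale.Agent.P141.H228.StageLG
import Vale.Agent.P141.H536.LightQ
import Vale.Agent.P141.H818.Ent3
import Vale.Agent.P141.H43.MidR

/-!
# P141, line (A): the stage over the `x0`, matrix form

The three labelled blocks of a node in one index type `Ix k × Option κ` (isometric padding), the
cyclic trace, the saturated pairs and the caps; `stageS : H408.StageS`.
-/

namespace Vale.Agent.P141.H501.StageM

open Finset Matrix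
open Vale.Agent.P075
open Vale.Agent.P141.PL (Pt iv hs ix mem_iv ix_ix)
open Vale.Agent.P141.PL.H588 (Xg hd smp)
open Vale.Agent.P141.PL.H804 (M2 hd_symm hd_sq hs_val)
open Vale.Agent.P141.H103 (QW)
open Vale.Agent.P141.H585.PairCh (phs)
open Vale.Agent.P141.H677 (nf3)
open Vale.Agent.P141.H408 (QL hdL rAB rBC rCA StageC StageS)
open Vale.Agent.P141.H750.NG (RPg RXg UXg UNg NMg)

noncomputable section

open scoped Classical

/-! ### Padding -/

section pad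

variable {n a b c : Type*} [Fintype n] [DecidableEq n] [Fintype a] [DecidableEq a] [Fintype b]
  [DecidableEq b] [Fintype c] [DecidableEq c]

theorem phi_emb {J : Matrix n a ℝ} (hJ : Jᵀ * J = 1) {X : Matrix a a ℝ} (hX : X.PosSemidef) :
    phi (J * X * Jᵀ) = J * phi X * Jᵀ := by
  have h1 : X * phi X = X - phi X := by
    have h0 := mul_res_phi hX
    calc X * phi X = X * (1 - res X) := rfl
      _ = X - phi X := by rw [Matrix.mul_sub, Matrix.mul_one, h0]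
  have h2 : (1 + J * X * Jᵀ) * (1 - J * phi X * Jᵀ) = 1 := by
    have e1 : J * X * Jᵀ * (J * phi X * Jᵀ) = J * (X * phi X) * Jᵀ := by
      calc J * X * Jᵀ * (J * phi X * Jᵀ) = J * X * (Jᵀ * J) * phi X * Jᵀ := by
            simp only [Matrix.mul_assoc]
        _ = J * (X * phi X) * Jᵀ := by rw [hJ, Matrix.mul_one, Matrix.mul_assoc J X]
    rw [Matrix.add_mul, Matrix.one_mul, Matrix.mul_sub, Matrix.mul_one, e1, h1, Matrix.mul_sub,
      Matrix.sub_mul]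
    abel
  have h3 : (1 + J * X * Jᵀ)⁻¹ = 1 - J * phi X * Jᵀ := Matrix.inv_eq_right_inv h2
  rw [phi, res, h3, sub_sub_cancel]

theorem cap_emb {J : Matrix n a ℝ} (hJ : Jᵀ * J = 1) {X : Matrix a a ℝ}
    (h : (1 - X).PosSemidef) : (1 - J * X * Jᵀ).PosSemidef := by
  have h1 : (1 - J * Jᵀ).PosSemidef := by
    have e : 1 - J * Jᵀ = (1 - J * Jᵀ) * (1 - J * Jᵀ)ᵀ := by
      have e2 : (1 - J * Jᵀ)ᵀ = 1 - J * Jᵀ := by
        rw [transpose_sub, transpose_one, transpose_mul, transpose_transpose]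
      have e3 : J * Jᵀ * (J * Jᵀ) = J * Jᵀ := by
        calc J * Jᵀ * (J * Jᵀ) = J * (Jᵀ * J) * Jᵀ := by simp only [Matrix.mul_assoc]
          _ = J * Jᵀ := by rw [hJ, Matrix.mul_one]
      rw [e2, Matrix.sub_mul, Matrix.one_mul, Matrix.mul_sub, Matrix.mul_one, e3]
      abel
    rw [e]
    exact psd_mul_transpose _
  have h2 := h1.add (psd_conj h J)
  have e : 1 - J * X * Jᵀ = 1 - J * Jᵀ + J * (1 - X) * Jᵀ := by
    rw [Matrix.mul_sub, Matrix.mul_one, Matrix.sub_mul]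
    abel
  rw [e]
  exact h2

theorem gramC_emb {Ja : Matrix n a ℝ} {Jb : Matrix n b ℝ} (hJ : Jaᵀ * Ja = 1) (μ : ℝ)
    (F : Matrix a b ℝ) : gramC μ (Ja * F * Jbᵀ) = Jb * (μ • (Fᵀ * F)) * Jbᵀ := by
  have e : (Ja * F * Jbᵀ)ᵀ * (Ja * F * Jbᵀ) = Jb * (Fᵀ * F) * Jbᵀ := by
    rw [transpose_mul, transpose_mul, transpose_transpose]
    calc Jb * (Fᵀ * Jaᵀ) * (Ja * F * Jbᵀ) = Jb * (Fᵀ * (Jaᵀ * Ja) * F) * Jbᵀ := by
          simp only [Matrix.mul_assoc]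
      _ = Jb * (Fᵀ * F) * Jbᵀ := by rw [hJ, Matrix.mul_one]
  rw [gramC, e, Matrix.mul_smul, Matrix.smul_mul]

theorem gramR_emb {Ja : Matrix n a ℝ} {Jb : Matrix n b ℝ} (hJ : Jbᵀ * Jb = 1) (μ : ℝ)
    (F : Matrix a b ℝ) : gramR μ (Ja * F * Jbᵀ) = Ja * (μ • (F * Fᵀ)) * Jaᵀ := by
  have e : (Ja * F * Jbᵀ) * (Ja * F * Jbᵀ)ᵀ = Ja * (F * Fᵀ) * Jaᵀ := by
    rw [transpose_mul, transpose_mul, transpose_transpose]
    calc Ja * F * Jbᵀ * (Jb * (Fᵀ * Jaᵀ)) = Ja * (F * (Jbᵀ * Jb) * Fᵀ) * Jaᵀ := by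
          simp only [Matrix.mul_assoc]
      _ = Ja * (F * Fᵀ) * Jaᵀ := by rw [hJ, Matrix.mul_one]
  rw [gramR, e, Matrix.mul_smul, Matrix.smul_mul]

theorem psd_c {μ : ℝ} (hμ : 0 ≤ μ) (F : Matrix a b ℝ) : (μ • (Fᵀ * F)).PosSemidef := by
  have := (posSemidef_conjTranspose_mul_self F).smul hμ
  rwa [conjTranspose_eq_transpose_of_trivial] at this

theorem psd_r {μ : ℝ} (hμ : 0 ≤ μ) (F : Matrix a b ℝ) : (μ • (F * Fᵀ)).PosSemidef := by
  have := (posSemidef_self_mul_conjTranspose F).smul hμ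
  rwa [conjTranspose_eq_transpose_of_trivial] at this

/-- the saturated pair of padded blocks -/
theorem M2_emb {Ja : Matrix n a ℝ} {Jb : Matrix n b ℝ} {Jc : Matrix n c ℝ} (ha : Jaᵀ * Ja = 1)
    (hb : Jbᵀ * Jb = 1) (hc : Jcᵀ * Jc = 1) {r : Matrix n n ℝ} {rb : Matrix b b ℝ}
    (hr : rᵀ = r) (hrb : rbᵀ = rb) (hJ : r * Jb = Jb * rb) {μ ν : ℝ} (hμ : 0 ≤ μ) (hν : 0 ≤ ν)
    (F : Matrix a b ℝ) (H : Matrix b c ℝ) :
    M2 r μ ν (Ja * F * Jbᵀ) (Jb * H * Jcᵀ) =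
      (phi (μ • (Fᵀ * F)) * (rb * phi (ν • (H * Hᵀ)) * rb)).trace := by
  have hJ' : Jbᵀ * r = rb * Jbᵀ := by
    have := congrArg Matrix.transpose hJ
    rwa [transpose_mul, transpose_mul, hr, hrb] at this
  rw [M2, gramC_emb ha, gramR_emb hc, phi_emb hb (psd_c hμ F), phi_emb hb (psd_r hν H)]
  set P := phi (μ • (Fᵀ * F))
  set Q := phi (ν • (H * Hᵀ))
  have e : Jb * P * Jbᵀ * (r * (Jb * Q * Jbᵀ) * r) = Jb * (P * (rb * Q * rb)) * Jbᵀ := by
    calc Jb * P * Jbᵀ * (r * (Jb * Q * Jbᵀ) * r)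
        = Jb * P * Jbᵀ * ((r * Jb) * Q * (Jbᵀ * r)) := by simp only [Matrix.mul_assoc]
      _ = Jb * P * (Jbᵀ * Jb) * (rb * Q * (rb * Jbᵀ)) := by
          rw [hJ, hJ']
          simp only [Matrix.mul_assoc]
      _ = Jb * (P * (rb * Q * rb)) * Jbᵀ := by
          rw [hb, Matrix.mul_one]
          simp only [Matrix.mul_assoc]
  rw [e, Matrix.trace_mul_comm, ← Matrix.mul_assoc, hb, Matrix.one_mul]

/-- the cyclic trace of padded blocks -/
theorem T3_emb {Ja : Matrix n a ℝ} {Jb : Matrix n b ℝ} {Jc : Matrix n c ℝ} (ha : Jaᵀ * Ja = 1)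
    (hb : Jbᵀ * Jb = 1) (hc : Jcᵀ * Jc = 1) {r : Matrix n n ℝ} {ra : Matrix a a ℝ}
    {rb : Matrix b b ℝ} {rc : Matrix c c ℝ} (hra : r * Ja = Ja * ra) (hrb : r * Jb = Jb * rb)
    (hrc : r * Jc = Jc * rc) (F : Matrix a b ℝ) (G : Matrix b c ℝ) (H : Matrix c a ℝ) :
    T3 r (Ja * F * Jbᵀ) (Jb * G * Jcᵀ) (Jc * H * Jaᵀ) = (ra * F * rb * G * rc * H).trace := by
  rw [T3]
  have e : r * (Ja * F * Jbᵀ) * r * (Jb * G * Jcᵀ) * r * (Jc * H * Jaᵀ) =
      Ja * (ra * F * rb * G * rc * H) * Jaᵀ := by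
    calc r * (Ja * F * Jbᵀ) * r * (Jb * G * Jcᵀ) * r * (Jc * H * Jaᵀ)
        = (r * Ja) * F * Jbᵀ * (r * Jb) * G * Jcᵀ * (r * Jc) * H * Jaᵀ := by
          simp only [Matrix.mul_assoc]
      _ = Ja * ra * F * (Jbᵀ * Jb) * rb * G * (Jcᵀ * Jc) * rc * H * Jaᵀ := by
          rw [hra, hrb, hrc]
          simp only [Matrix.mul_assoc]
      _ = Ja * (ra * F * rb * G * rc * H) * Jaᵀ := by
          rw [hb, hc]
          simp only [Matrix.mul_assoc, Matrix.one_mul, Matrix.mul_one]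
  rw [e, Matrix.trace_mul_comm, ← Matrix.mul_assoc, ha, Matrix.one_mul]

/-- a cap on the row side is a cap on the column side -/
theorem cap_rc {μ : ℝ} {F : Matrix a b ℝ} (h : (1 - μ • (F * Fᵀ)).PosSemidef) (hμ : 0 < μ) :
    (1 - μ • (Fᵀ * F)).PosSemidef := by
  have h1 : (μ⁻¹ • (1 : Matrix a a ℝ) - (Fᵀ)ᵀ * Fᵀ).PosSemidef := by
    have := h.smul (inv_pos.2 hμ).le
    rw [smul_sub, smul_smul, inv_mul_cancel₀ hμ.ne', one_smul] at this
    rwa [transpose_transpose]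
  have h2 := H818.cap_swap h1 (inv_pos.2 hμ).le
  rw [transpose_transpose] at h2
  have h3 := h2.smul hμ.le
  rwa [smul_sub, smul_smul, mul_inv_cancel₀ hμ.ne', one_smul] at h3

end pad

/-! ### The blocks of a node -/

section node

variable {κ : Type} [Fintype κ] [DecidableEq κ]

/-- embedding of the points without label -/
def E0 (κ : Type) [DecidableEq κ] (k : ℕ) : Matrix (Ix k × Option κ) (Ix k) ℝ := fun p i =>
  if p.2 = none ∧ p.1 = i then 1 else 0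

/-- embedding of the points with label -/
def E1 (κ : Type) [DecidableEq κ] (k : ℕ) : Matrix (Ix k × Option κ) (Ix k × κ) ℝ := fun p q =>
  if p.2 = some q.2 ∧ p.1 = q.1 then 1 else 0

theorem E0_iso (k : ℕ) : (E0 κ k)ᵀ * E0 κ k = 1 := by
  ext i j
  rw [Matrix.mul_apply, Fintype.sum_prod_type, Matrix.one_apply]
  simp only [transpose_apply, E0, Fintype.sum_option]
  by_cases h : i = j
  · subst h
    simp
  · simp [h, Ne.symm h]

theorem E1_iso (k : ℕ) : (E1 κ k)ᵀ * E1 κ k = 1 := by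
  ext i j
  rw [Matrix.mul_apply, Fintype.sum_prod_type, Matrix.one_apply]
  simp only [transpose_apply, E1, Fintype.sum_option]
  by_cases h : i = j
  · subst h
    simp [ite_and]
  · rw [if_neg h]
    refine Finset.sum_eq_zero fun x _ => ?_
    simp only [reduceCtorEq, false_and, if_false, mul_zero, zero_add, Option.some.injEq]
    refine Finset.sum_eq_zero fun l _ => ?_
    by_cases h1 : l = i.2 ∧ x = i.1
    · rw [if_neg (c := l = j.2 ∧ x = j.1), mul_zero]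
      intro h2
      exact h (Prod.ext (h1.2.symm.trans h2.2) (h1.1.symm.trans h2.1))
    · rw [if_neg h1, zero_mul]

theorem hdL_E0 (k : ℕ) : hdL (Option κ) k * E0 κ k = E0 κ k * hd k := by
  ext p j
  rw [Matrix.mul_apply, Matrix.mul_apply, Fintype.sum_prod_type]
  simp only [hdL, E0]
  obtain ⟨i, q⟩ := p
  cases q with
  | none => simp [Fintype.sum_option]
  | some l => simp [Fintype.sum_option]

theorem hdL_E1 (k : ℕ) : hdL (Option κ) k * E1 κ k = E1 κ k * hdL κ k := by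
  ext p j
  rw [Matrix.mul_apply, Matrix.mul_apply, Fintype.sum_prod_type, Fintype.sum_prod_type]
  simp only [hdL, E1]
  obtain ⟨i, q⟩ := p
  obtain ⟨j, l'⟩ := j
  cases q with
  | none => simp [Fintype.sum_option]
  | some l =>
    simp only [Fintype.sum_option, reduceCtorEq, if_false, zero_mul, zero_add,
      Option.some.injEq, ite_mul, mul_ite, mul_one, mul_zero]
    by_cases h : l = l'
    · subst h
      simp [ite_and]
    · simp [ite_and, h]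

theorem hdL_symm (k : ℕ) : (hdL κ k)ᵀ = hdL κ k := by
  ext p q
  rw [transpose_apply, hdL, hdL]
  by_cases h : p.2 = q.2
  · rw [if_pos h, if_pos h.symm]
    exact congrFun (congrFun (hd_symm k) p.1) q.1
  · rw [if_neg h, if_neg (Ne.symm h)]

theorem hdL_sq (k : ℕ) : hdL κ k * hdL κ k = 1 := by
  ext p q
  rw [Matrix.mul_apply, Fintype.sum_prod_type, Matrix.one_apply]
  have h1 : ∀ x : Ix k, ∑ l : κ, hdL κ k p (x, l) * hdL κ k (x, l) q =
      if p.2 = q.2 then hd k p.1 x * hd k x q.1 else 0 := by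
    intro x
    simp only [hdL]
    rw [Finset.sum_eq_single p.2]
    · by_cases h : p.2 = q.2
      · simp [h]
      · simp [h]
    · intro l _ hl
      rw [if_neg (Ne.symm hl), zero_mul]
    · intro h
      exact absurd (mem_univ _) h
  simp only [h1]
  by_cases h : p.2 = q.2
  · simp only [h, if_true]
    have h2 := congrFun (congrFun (hd_sq k) p.1) q.1
    rw [Matrix.mul_apply] at h2
    rw [h2, Matrix.one_apply]
    by_cases h3 : p.1 = q.1
    · rw [if_pos h3, if_pos (Prod.ext h3 h)]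
    · rw [if_neg h3, if_neg (fun h4 => h3 (congrArg Prod.fst h4))]
  · simp only [if_neg h, Finset.sum_const_zero]
    rw [if_neg (fun h4 => h (congrArg Prod.snd h4))]

/-- block of `A`, rows `x3`, columns `x2` -/
def bA (A : ℤ → ℤ → ℝ) (k : ℕ) (m : Pt) : Matrix (Ix k) (Ix k) ℝ := fun i j =>
  A (2 ^ k * m.1 + val k i) (2 ^ k * m.2.1 + val k j)

/-- block of `B`, rows `x2`, columns `x1` with label -/
def bB (B : ℤ → ℤ → κ → ℝ) (k : ℕ) (m : Pt) : Matrix (Ix k) (Ix k × κ) ℝ := fun j p =>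
  B (2 ^ k * m.2.2 + val k p.1) (2 ^ k * m.2.1 + val k j) p.2

/-- block of `C`, rows `x1` with label, columns `x3` -/
def bC (C : ℤ → ℤ → κ → ℝ) (k : ℕ) (m : Pt) : Matrix (Ix k × κ) (Ix k) ℝ := fun p i =>
  C (2 ^ k * m.1 + val k i) (2 ^ k * m.2.2 + val k p.1) p.2

/-- padded blocks -/
def pA (κ : Type) [DecidableEq κ] (A : ℤ → ℤ → ℝ) (k : ℕ) (m : Pt) :
    Matrix (Ix k × Option κ) (Ix k × Option κ) ℝ := E0 κ k * bA A k m * (E0 κ k)ᵀ

/-- padded blocks -/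
def pB (B : ℤ → ℤ → κ → ℝ) (k : ℕ) (m : Pt) :
    Matrix (Ix k × Option κ) (Ix k × Option κ) ℝ := E0 κ k * bB B k m * (E1 κ k)ᵀ

/-- padded blocks -/
def pC (C : ℤ → ℤ → κ → ℝ) (k : ℕ) (m : Pt) :
    Matrix (Ix k × Option κ) (Ix k × Option κ) ℝ := E1 κ k * bC C k m * (E0 κ k)ᵀ

theorem four (k : ℕ) : ((4 : ℝ) ^ k)⁻¹ = ((2 : ℝ) ^ k * 2 ^ k)⁻¹ := by
  rw [← mul_pow]
  norm_num

theorem gA_c (A : ℤ → ℤ → ℝ) (k : ℕ) (m : Pt) :
    ((4 : ℝ) ^ k)⁻¹ • ((bA A k m)ᵀ * bA A k m) = Xg k k A m.1 m.2.1 := by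
  rw [four]
  rfl

theorem gA_r (A : ℤ → ℤ → ℝ) (k : ℕ) (m : Pt) :
    ((4 : ℝ) ^ k)⁻¹ • (bA A k m * (bA A k m)ᵀ) = Xg k k (fun y z => A z y) m.2.1 m.1 := by
  rw [four, Xg]
  rfl

theorem gB_r (B : ℤ → ℤ → κ → ℝ) (k : ℕ) (m : Pt) :
    ((4 : ℝ) ^ k)⁻¹ • (bB B k m * (bB B k m)ᵀ) = QW k k B (fun _ => 1) m.2.2 m.2.1 := by
  rw [four]
  ext j j'
  rw [Matrix.smul_apply, Matrix.mul_apply, Fintype.sum_prod_type, QW, smul_eq_mul,
    ← H43.sum_val_iv]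
  congr 1
  refine Finset.sum_congr rfl fun i _ => ?_
  rw [Matrix.one_mulVec]
  rfl

theorem gC_c (C : ℤ → ℤ → κ → ℝ) (k : ℕ) (m : Pt) :
    ((4 : ℝ) ^ k)⁻¹ • ((bC C k m)ᵀ * bC C k m) =
      QW k k (fun x z => C z x) (fun _ => 1) m.2.2 m.1 := by
  rw [four]
  ext j j'
  rw [Matrix.smul_apply, Matrix.mul_apply, Fintype.sum_prod_type, QW, smul_eq_mul,
    ← H43.sum_val_iv]
  congr 1
  refine Finset.sum_congr rfl fun i _ => ?_
  rw [Matrix.one_mulVec]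
  rfl

theorem gB_c (B : ℤ → ℤ → κ → ℝ) (k : ℕ) (m : Pt) :
    ((4 : ℝ) ^ k)⁻¹ • ((bB B k m)ᵀ * bB B k m) = QL k (fun y x => B x y) m.2.1 m.2.2 := by
  rw [four]
  ext p q
  rw [Matrix.smul_apply, Matrix.mul_apply, QL, smul_eq_mul, ← H43.sum_val_iv]
  rfl

theorem gC_r (C : ℤ → ℤ → κ → ℝ) (k : ℕ) (m : Pt) :
    ((4 : ℝ) ^ k)⁻¹ • (bC C k m * (bC C k m)ᵀ) = QL k C m.1 m.2.2 := by
  rw [four]
  ext p q
  rw [Matrix.smul_apply, Matrix.mul_apply, QL, smul_eq_mul, ← H43.sum_val_iv]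
  rfl

/-- two saturated matrices with their levels -/
theorem phs_pair {a : Type*} [Fintype a] [DecidableEq a] (x y : ℝ) (X Y h : Matrix a a ℝ)
    (u : ℝ) :
    u * (phs (x ^ 2) X * (h * phs (y ^ 2) Y * h)).trace =
      x ^ 2 * y ^ 2 * (u * (phi ((x ^ 2)⁻¹ • X) * (h * phi ((y ^ 2)⁻¹ • Y) * h)).trace) := by
  unfold phs
  simp only [Matrix.mul_smul, Matrix.smul_mul, trace_smul, smul_eq_mul]
  ring

theorem rAB_M2 {x y : ℝ} (A : ℤ → ℤ → ℝ) (B : ℤ → ℤ → κ → ℝ) (k : ℕ)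
    (m : Pt) :
    rAB A B k m x y = x ^ 2 * y ^ 2 * (4 ^ k * M2 (hdL (Option κ) k) ((x ^ 2)⁻¹ * (4 ^ k)⁻¹)
      ((y ^ 2)⁻¹ * (4 ^ k)⁻¹) (pA κ A k m) (pB B k m)) := by
  rw [rAB, phs_pair, pA, pB, M2_emb (E0_iso k) (E0_iso k) (E1_iso k) (hdL_symm k) (hd_symm k)
    (hdL_E0 k) (by positivity) (by positivity), mul_smul, mul_smul, gA_c, gB_r]

theorem rBC_M2 {y z : ℝ} (B C : ℤ → ℤ → κ → ℝ) (k : ℕ) (m : Pt) :
    rBC B C k m y z = y ^ 2 * z ^ 2 * (4 ^ k * M2 (hdL (Option κ) k) ((y ^ 2)⁻¹ * (4 ^ k)⁻¹)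
      ((z ^ 2)⁻¹ * (4 ^ k)⁻¹) (pB B k m) (pC C k m)) := by
  rw [rBC, phs_pair, pB, pC, M2_emb (E0_iso k) (E1_iso k) (E0_iso k) (hdL_symm k) (hdL_symm k)
    (hdL_E1 k) (by positivity) (by positivity), mul_smul, mul_smul, gB_c, gC_r]

theorem rCA_M2 {z x : ℝ} (C : ℤ → ℤ → κ → ℝ) (A : ℤ → ℤ → ℝ) (k : ℕ) (m : Pt) :
    rCA C A k m z x = z ^ 2 * x ^ 2 * (4 ^ k * M2 (hdL (Option κ) k) ((z ^ 2)⁻¹ * (4 ^ k)⁻¹)
      ((x ^ 2)⁻¹ * (4 ^ k)⁻¹) (pC C k m) (pA κ A k m)) := by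
  rw [rCA, phs_pair, pC, pA, M2_emb (E1_iso k) (E0_iso k) (E0_iso k) (hdL_symm k) (hd_symm k)
    (hdL_E0 k) (by positivity) (by positivity), mul_smul, mul_smul, gC_c, gA_r]

theorem cap_inv {a : Type*} [Fintype a] [DecidableEq a] {c : ℝ} (hc : 0 < c) {X : Matrix a a ℝ}
    (h : ((c ^ 2) • 1 - X).PosSemidef) : (1 - (c ^ 2)⁻¹ • X).PosSemidef := by
  have := h.smul (by positivity : (0 : ℝ) ≤ (c ^ 2)⁻¹)
  rwa [smul_sub, smul_smul, inv_mul_cancel₀ (by positivity), one_smul] at this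

theorem capA_p {c : ℝ} (hc : 0 < c) {A : ℤ → ℤ → ℝ} {k : ℕ} {m : Pt}
    (h : ((c ^ 2) • 1 - Xg k k A m.1 m.2.1).PosSemidef) :
    (1 - gramC ((c ^ 2)⁻¹ * (4 ^ k)⁻¹) (pA κ A k m)).PosSemidef := by
  rw [pA, gramC_emb (E0_iso k), mul_smul, gA_c]
  exact cap_emb (E0_iso k) (cap_inv hc h)

theorem capC_p {c : ℝ} (hc : 0 < c) {C : ℤ → ℤ → κ → ℝ} {k : ℕ} {m : Pt}
    (h : ((c ^ 2) • 1 - QW k k (fun x z => C z x) (fun _ => 1) m.2.2 m.1).PosSemidef) :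
    (1 - gramC ((c ^ 2)⁻¹ * (4 ^ k)⁻¹) (pC C k m)).PosSemidef := by
  rw [pC, gramC_emb (E1_iso k), mul_smul, gC_c]
  exact cap_emb (E0_iso k) (cap_inv hc h)

theorem capB_p {c : ℝ} (hc : 0 < c) {B : ℤ → ℤ → κ → ℝ} {k : ℕ} {m : Pt}
    (h : ((c ^ 2) • 1 - QW k k B (fun _ => 1) m.2.2 m.2.1).PosSemidef) :
    (1 - gramC ((c ^ 2)⁻¹ * (4 ^ k)⁻¹) (pB B k m)).PosSemidef := by
  rw [pB, gramC_emb (E0_iso k)]
  refine cap_emb (E1_iso k) (cap_rc ?_ (by positivity))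
  rw [mul_smul, gB_r]
  exact cap_inv hc h

/-- **The node form as a cyclic trace.** -/
theorem nf3_T3 {k : ℕ} (hk : 1 ≤ k) (A : ℤ → ℤ → ℝ) (B C : ℤ → ℤ → κ → ℝ) (m : Pt) :
    nf3 A B C k m =
      (2 ^ k : ℝ)⁻¹ * T3 (hdL (Option κ) k) (pA κ A k m) (pB B k m) (pC C k m) := by
  rw [pA, pB, pC, T3_emb (E0_iso k) (E0_iso k) (E1_iso k) (hdL_E0 k) (hdL_E0 k) (hdL_E1 k), nf3]
  congr 1
  have e1 : hd k = diagonal fun i : Ix k => hs k (val k i : ℤ) := H536.hd_diag hk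
  have e2 : hdL κ k = diagonal fun p : Ix k × κ => hs k (val k p.1 : ℤ) := by
    ext p q
    rw [hdL, e1]
    by_cases h : p = q
    · subst h
      rw [if_pos rfl, diagonal_apply_eq, diagonal_apply_eq]
    · rw [diagonal_apply_ne _ h]
      by_cases h2 : p.2 = q.2
      · rw [if_pos h2, diagonal_apply_ne]
        exact fun h3 => h (Prod.ext h3 h2)
      · rw [if_neg h2]
  have e3 : ∀ (c : ℤ) (i : Ix k), hs k (2 ^ k * c + val k i) = hs k (val k i : ℤ) := by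
    obtain ⟨j, rfl⟩ := Nat.exists_eq_add_of_le' hk
    intro c i
    have h1 := hs_val j c i
    have h2 := hs_val j 0 i
    rw [mul_zero, zero_add] at h2
    rw [h1, h2]
  rw [e1, e2, Matrix.trace]
  simp only [Matrix.diag_apply]
  rw [← H43.sum_val_iv k m.1]
  refine Finset.sum_congr rfl fun i _ => ?_
  rw [Matrix.mul_apply, Fintype.sum_prod_type, ← H43.sum_val_iv k m.2.2]
  refine Finset.sum_congr rfl fun i' _ => ?_
  rw [← H43.sum_val_iv k m.2.1]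
  simp only [Matrix.mul_diagonal, Matrix.mul_apply (M := _ * diagonal _), Matrix.diagonal_mul, e3,
    dotProduct, Finset.mul_sum, Finset.sum_mul]
  rw [Finset.sum_comm]
  refine Finset.sum_congr rfl fun j _ => Finset.sum_congr rfl fun l _ => ?_
  simp only [bA, bB, bC]
  ring

end node

/-! ### The stage -/

theorem slack {h τ : ℝ} (hh : 0 < h) (hτ : h ≤ τ) :
    h ^ 2 * (τ / h) ^ (1 / 4 : ℝ) ≤ h ^ 2 * √(τ / h) := by
  refine mul_le_mul_of_nonneg_left ?_ (by positivity)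
  rw [Real.sqrt_eq_rpow]
  exact Real.rpow_le_rpow_of_exponent_le ((one_le_div hh).2 hτ) (by norm_num)

/-- **The stage over the `x0`.** -/
theorem stageC : StageC 81 := by
  intro κ _ _ J X K s A B C cA cB cC θ τ P₀ PA PB κ' L₀ hcA hA hcB hB hcC hθ hP₀ hPA hPB hκ' hL
    capA capB capC hAB hBC hCA hT
  have eAB : ∀ x y : ℝ, RXg (hdL (Option κ)) X K s x y (fun i k m => pA κ (A i k m) k m)
      (fun i k m => pB (B i k m) k m) =
      ∑ i ∈ X, ∑ k ∈ Icc 1 K, ∑ m ∈ s i k, rAB (A i k m) (B i k m) k m x y := by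
    intro x y
    unfold RXg RPg
    refine Finset.sum_congr rfl fun i _ => Finset.sum_congr rfl fun k _ =>
      Finset.sum_congr rfl fun m _ => ?_
    rw [rAB_M2]
  have eBC : ∀ x y : ℝ, RXg (hdL (Option κ)) X K s x y (fun i k m => pB (B i k m) k m)
      (fun i k m => pC (C i k m) k m) =
      ∑ i ∈ X, ∑ k ∈ Icc 1 K, ∑ m ∈ s i k, rBC (B i k m) (C i k m) k m x y := by
    intro x y
    unfold RXg RPg
    refine Finset.sum_congr rfl fun i _ => Finset.sum_congr rfl fun k _ =>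
      Finset.sum_congr rfl fun m _ => ?_
    rw [rBC_M2]
  have eCA : ∀ x y : ℝ, RXg (hdL (Option κ)) X K s x y (fun i k m => pC (C i k m) k m)
      (fun i k m => pA κ (A i k m) k m) =
      ∑ i ∈ X, ∑ k ∈ Icc 1 K, ∑ m ∈ s i k, rCA (C i k m) (A i k m) k m x y := by
    intro x y
    unfold RXg RPg
    refine Finset.sum_congr rfl fun i _ => Finset.sum_congr rfl fun k _ =>
      Finset.sum_congr rfl fun m _ => ?_
    rw [rCA_M2]
  have main := H228.stageLG (hh := hdL (Option κ)) (I := X) (N := K) (s := s)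
    (FA := fun i k m => pA κ (A i k m) k m) (FB := fun i k m => pB (B i k m) k m)
    (FC := fun i k m => pC (C i k m) k m) (cA := cA) (cB := cB) (cC := cC)
    (fun k => hdL_symm k) (fun k => hdL_sq k) hcA hcB hcC
    (fun i hi k hk m hm => capA_p hcA (capA i hi k hk m hm))
    (fun i hi k hk m hm => capB_p hcB (capB i hi k hk m hm))
    (fun i hi k hk m hm => capC_p hcC (capC i hi k hk m hm)) (κ' := κ') (L₀ := L₀) hθ hA hB hP₀
    hPA hPB hκ'
    (fun h h0 h1 => (eAB h h).le.trans ((hAB h h0 h1).trans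
      (mul_le_mul_of_nonneg_left (slack h0 h1) hP₀)))
    (fun h h0 h1 => (eBC h (θ * h)).le.trans ((hBC h h0 h1).trans
      (mul_le_mul_of_nonneg_left (slack h0 h1) hPB)))
    (fun h h0 h1 => (eCA (θ * h) h).le.trans ((hCA h h0 h1).trans
      (mul_le_mul_of_nonneg_left (slack h0 h1) hPA)))
    (fun x h0 h1 => by rw [eBC, eCA]; exact hT x h0 h1) hL
  have e : ∑ i ∈ X, ∑ k ∈ Icc 1 K, ∑ m ∈ s i k, |nf3 (A i k m) (B i k m) (C i k m) k m| =
      UXg (hdL (Option κ)) X K s cA cB cC (fun i k m => pA κ (A i k m) k m)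
        (fun i k m => pB (B i k m) k m) (fun i k m => pC (C i k m) k m) 0 0 0 := by
    unfold UXg UNg
    refine Finset.sum_congr rfl fun i _ => Finset.sum_congr rfl fun k hk =>
      Finset.sum_congr rfl fun m _ => ?_
    rw [nf3_T3 (mem_Icc.1 hk).1]
    rfl
  rw [e]
  refine main.trans ?_
  have n1 : 0 ≤ κ' * (L₀ : ℝ) := mul_nonneg hκ' (Nat.cast_nonneg _)
  linarith

theorem stageS : StageS := ⟨81, by norm_num, stageC⟩

end

end Vale.Agent.P141.H501.StageM
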