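import Vale.Agent.P141.H540.GenRA
import Vale.Agent.P141.H460.AffV

/-!
# P141, line (A): the mask of the generation 0 and the stopped set

`muS k a b = 1` iff the generation at the cells `a` of `x0` and `b` of `x3` is at least one.

* `mu_mul` : `s - sG 0 = muS * s`; `mu_mono`, `mu_up` : `muS` grows when the scale decreases;
* `sum_mu` : the number of the stopped points `x0` of a root, by the top trace alone, every
  `x1`, `x3`; `sum_mu_T` : the instance of the signs of `RT`, summed over the roots;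
* `VG` : the mean of the stopped indicator over the cells of `x0`, `mu_le_VG`, `VG_mrt`.
-/

namespace Vale.Agent.P141.H501

open Finset Matrix
open Vale.Agent.P141.PL (Pt iv hs ix mem_iv ix_ix)
open Vale.Agent.P141.H970
open Vale.Agent.P141.H540
open Vale.Agent.P141.H43 (nsq nsq_nonneg)
open Vale.Agent.P141.H922 (ck tmean_iv)
open Vale.Agent.P141.H483 (tmean tmean_mono tmean_const tmean_mul)
open Vale.Agent.P141.H690 (tr6 tr6_zero Pst6 MX Qs Qs_psd prob_stop6 XT XT_symm XT_sum_le'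
  XT_trace_le XT_psd Qs_trace_eq)
open Vale.Agent.P141.H677 (KT GT MT RT thN nd3 sN cP rv rt)

noncomputable section

open scoped Classical

set_option linter.unusedSectionVars false

variable {ι : Type*} [Fintype ι] [DecidableEq ι]

/-! ### The mask -/

/-- the stopped indicator: the generation at the cells `a` of `x0`, `b` of `x3` is at least one -/
def muS (l : ℝ) (n : ℕ) (Kq : ℕ → ℤ → Matrix ι ι ℝ) (M : ℕ → ℝ) (o x1 : ℤ) (s : ℕ → ℤ → ℤ → ℝ)
    (k : ℕ) (a b : ℤ) : ℝ :=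
  if 1 ≤ gmm l n Kq M o x1 s k a b then 1 else 0

variable {l : ℝ} {n : ℕ} {Kq : ℕ → ℤ → Matrix ι ι ℝ} {M : ℕ → ℝ} {o x1 : ℤ}
  {s : ℕ → ℤ → ℤ → ℝ}

theorem mu_or (k : ℕ) (a b : ℤ) :
    muS l n Kq M o x1 s k a b = 0 ∨ muS l n Kq M o x1 s k a b = 1 := by
  unfold muS
  split_ifs
  · exact Or.inr rfl
  · exact Or.inl rfl

theorem mu_nonneg (k : ℕ) (a b : ℤ) : 0 ≤ muS l n Kq M o x1 s k a b := by
  rcases mu_or (l := l) (n := n) (Kq := Kq) (M := M) (o := o) (x1 := x1) (s := s) k a b with h | h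
    <;> rw [h] <;> norm_num

theorem mu_le_one (k : ℕ) (a b : ℤ) : muS l n Kq M o x1 s k a b ≤ 1 := by
  rcases mu_or (l := l) (n := n) (Kq := Kq) (M := M) (o := o) (x1 := x1) (s := s) k a b with h | h
    <;> rw [h]
  · norm_num

theorem mu_sq (k : ℕ) (a b : ℤ) :
    muS l n Kq M o x1 s k a b ^ 2 = muS l n Kq M o x1 s k a b := by
  rcases mu_or (l := l) (n := n) (Kq := Kq) (M := M) (o := o) (x1 := x1) (s := s) k a b with h | h
    <;> rw [h] <;> norm_num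

/-- **the signs outside the generation 0 are the stopped ones** -/
theorem mu_mul (k : ℕ) (a b : ℤ) :
    s k a b - sG l n Kq M o x1 s 0 k a b = muS l n Kq M o x1 s k a b * s k a b := by
  unfold muS sG
  by_cases h : gmm l n Kq M o x1 s k a b = 0
  · rw [if_pos h, if_neg (by omega)]
    ring
  · rw [if_neg h, if_pos (by omega)]
    ring

theorem sG_mu (k : ℕ) (a b : ℤ) :
    sG l n Kq M o x1 s 0 k a b = (1 - muS l n Kq M o x1 s k a b) * s k a b := by
  have h := mu_mul (l := l) (n := n) (Kq := Kq) (M := M) (o := o) (x1 := x1) (s := s) k a b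
  linarith

theorem gmm_mono {k : ℕ} (hk : k < n) (x0 x3 : ℤ) :
    gmm l n Kq M o x1 s (k + 1) (ix (k + 1) x0) (ix (k + 1) x3) ≤
      gmm l n Kq M o x1 s k (ix k x0) (ix k x3) := by
  rw [gmm_eq (show k + 1 ≤ n by omega), gmm_eq hk.le]
  have h := (gn_st n M (XS l n Kq o x1 s x3)).mono hk (ix k x0)
  rw [← H841.ix_half k x0] at h
  exact h

/-- `muS` grows when the scale decreases -/
theorem mu_mono {k : ℕ} (hk : k < n) (x0 x3 : ℤ) :
    muS l n Kq M o x1 s (k + 1) (ix (k + 1) x0) (ix (k + 1) x3) ≤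
      muS l n Kq M o x1 s k (ix k x0) (ix k x3) := by
  have h := gmm_mono (l := l) (Kq := Kq) (M := M) (o := o) (x1 := x1) (s := s) hk x0 x3
  unfold muS
  split_ifs with h1 h2 h2
  · exact le_rfl
  · omega
  · norm_num
  · exact le_rfl

theorem mu_up {j k : ℕ} (hjk : j ≤ k) (hk : k ≤ n) (x0 x3 : ℤ) :
    muS l n Kq M o x1 s k (ix k x0) (ix k x3) ≤ muS l n Kq M o x1 s j (ix j x0) (ix j x3) := by
  induction k, hjk using Nat.le_induction with
  | base => exact le_rfl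
  | succ k _ ih => exact (mu_mono (by omega) x0 x3).trans (ih (by omega))

/-- the mask vanishes at the top scale -/
theorem mu_top (a b : ℤ) : muS l n Kq M o x1 s n a b = 0 := by
  unfold muS gmm
  rw [Nat.sub_self]
  simp [st]

/-- a stopped cell consists of stopped points -/
theorem mu_point {k : ℕ} (hk : k ≤ n) {x0 x3 : ℤ}
    (h : muS l n Kq M o x1 s k (ix k x0) (ix k x3) = 1) : muS l n Kq M o x1 s 0 x0 x3 = 1 := by
  have h1 := mu_up (l := l) (Kq := Kq) (M := M) (o := o) (x1 := x1) (s := s) (Nat.zero_le k) hk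
    x0 x3
  rw [h, ix_zero, ix_zero] at h1
  exact le_antisymm (mu_le_one _ _ _) h1

/-! ### The mean of the stopped indicator -/

/-- the mean of the stopped indicator over a cell of `x0` -/
def VG (l : ℝ) (n : ℕ) (Kq : ℕ → ℤ → Matrix ι ι ℝ) (M : ℕ → ℝ) (o x1 : ℤ) (s : ℕ → ℤ → ℤ → ℝ)
    (x3 : ℤ) (k : ℕ) (m : ℤ) : ℝ :=
  tmean (fun x0 => muS l n Kq M o x1 s 0 x0 x3) k m

theorem VG_iv (x3 : ℤ) (k : ℕ) (m : ℤ) :
    2 ^ k * VG l n Kq M o x1 s x3 k m = ∑ x0 ∈ iv k m, muS l n Kq M o x1 s 0 x0 x3 :=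
  tmean_iv _ k m

theorem VG_nonneg (x3 : ℤ) (k : ℕ) (m : ℤ) : 0 ≤ VG l n Kq M o x1 s x3 k m := by
  have h := tmean_mono (f := fun _ => (0 : ℝ)) (g := fun x0 => muS l n Kq M o x1 s 0 x0 x3)
    (fun m => mu_nonneg _ _ _) k m
  rwa [tmean_const] at h

theorem VG_le_one (x3 : ℤ) (k : ℕ) (m : ℤ) : VG l n Kq M o x1 s x3 k m ≤ 1 := by
  have h := tmean_mono (f := fun x0 => muS l n Kq M o x1 s 0 x0 x3) (g := fun _ => (1 : ℝ))
    (fun m => mu_le_one _ _ _) k m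
  rwa [tmean_const] at h

/-- on a stopped cell the mean is one -/
theorem VG_one {k : ℕ} (hk : k ≤ n) {x0 x3 : ℤ}
    (h : muS l n Kq M o x1 s k (ix k x0) (ix k x3) = 1) :
    VG l n Kq M o x1 s x3 k (ix k x0) = 1 := by
  have h1 := VG_iv (l := l) (n := n) (Kq := Kq) (M := M) (o := o) (x1 := x1) (s := s) x3 k
    (ix k x0)
  have h2 : ∑ y ∈ iv k (ix k x0), muS l n Kq M o x1 s 0 y x3 = 2 ^ k := by
    have h3 : ∀ y ∈ iv k (ix k x0), muS l n Kq M o x1 s 0 y x3 = 1 := by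
      intro y hy
      refine mu_point hk ?_
      rw [mem_iv.1 hy, h]
    rw [sum_congr rfl h3, sum_const, PL.card_iv, nsmul_eq_mul, mul_one]
    norm_num
  rw [h2] at h1
  have h4 : (0 : ℝ) < 2 ^ k := by positivity
  have h5 : (2 : ℝ) ^ k * VG l n Kq M o x1 s x3 k (ix k x0) = 2 ^ k * 1 := by rw [h1, mul_one]
  exact mul_left_cancel₀ h4.ne' h5

/-- **the mask is at most the square of the mean** -/
theorem mu_le_VG {k : ℕ} (hk : k ≤ n) (x0 x3 : ℤ) :
    muS l n Kq M o x1 s k (ix k x0) (ix k x3) ≤ VG l n Kq M o x1 s x3 k (ix k x0) ^ 2 := by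
  rcases mu_or (l := l) (n := n) (Kq := Kq) (M := M) (o := o) (x1 := x1) (s := s) k (ix k x0)
    (ix k x3) with h | h
  · rw [h]
    positivity
  · rw [h, VG_one hk h, one_pow]

/-- the mean times a fixed vector is a martingale in `x0` -/
theorem VG_mrt (x3 : ℤ) (v : ι → ℝ) :
    H460.Mrt n (fun k m => VG l n Kq M o x1 s x3 k m • v) := by
  intro k _ m
  ext i
  simp only [VG, tmean, Pi.smul_apply, Pi.add_apply, smul_eq_mul]
  ring

theorem VG_zero (x3 m : ℤ) : VG l n Kq M o x1 s x3 0 m = muS l n Kq M o x1 s 0 m x3 := rfl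

/-! ### The number of the stopped points -/

section props

variable {G : ℕ → ℤ → Matrix ι ι ℝ} (hT : H420.Tr l n G Kq) (hs1 : ∀ k a b, |s k a b| ≤ 1)
  (ho : o = 1 ∨ o = -1)

theorem sum_mu_eq (t x3 : ℤ) :
    ∑ x0 ∈ iv n t, muS l n Kq M o x1 s 0 x0 x3 =
      2 ^ n * tmean (Gn.ge (fun k m => (st n M (XS l n Kq o x1 s x3) (n - k) m).1) 1 0) n t := by
  rw [tmean_iv]
  refine sum_congr rfl fun x0 _ => ?_
  have h := gmm_eq (l := l) (n := n) (Kq := Kq) (M := M) (o := o) (x1 := x1) (s := s)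
    (Nat.zero_le n) x0 x3
  rw [ix_zero] at h
  unfold muS Gn.ge
  rw [h]

include hT hs1 ho in
/-- **the stopped points, by the energy of the whole slot** -/
theorem sum_mu {κ : ℕ → ℝ} (hκ : ∀ g, 0 < κ g) (t x3 : ℤ) :
    ∑ x0 ∈ iv n t, muS l n Kq (fun g => κ g ^ 6) o x1 s 0 x0 x3 ≤
      2520000 * (∑ a, ∑ x0 ∈ iv n t,
        nsq (H841.Rm (MT l Kq) o x1 s n 0 x0 x3 *ᵥ Pi.single a 1)) / κ 0 ^ 6 := by
  have hc : -3 ≤ o - 2 ∧ o - 2 ≤ -1 := by rcases ho with h | h <;> omega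
  have hG := gn_st n (fun g => κ g ^ 6) (XS l n Kq o x1 s x3)
  have hth := thS_le (s := s) hs1 x3
  have h2 := prob_top hG (by norm_num : (0 : ℝ) < 3) (fun g => pow_pos (hκ g) 6)
    (XT_symm hT) (XT_psd (x1 := x1) (x3 := x3) hT hth hc.1 hc.2) 0 t
  have h4 : (2 : ℝ) ^ n * (Qs (XS l n Kq o x1 s x3) n t).trace =
      ∑ a, ∑ x0 ∈ iv n t, nsq (H841.Rm (MT l Kq) o x1 s n 0 x0 x3 *ᵥ Pi.single a 1) := by
    unfold XS
    rw [Qs_trace_eq (XT_symm hT), mul_sum]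
    refine sum_congr rfl fun a _ => ?_
    exact (Rm_energy_all (l := l) (Kq := Kq) (o := o) (x1 := x1) (s := s) t x3 _).symm
  rw [← h4, sum_mu_eq]
  have h5 := mul_le_mul_of_nonneg_left h2 (by positivity : (0 : ℝ) ≤ 2 ^ n)
  refine h5.trans (le_of_eq ?_)
  ring

end props

/-! ### The slot `RT` -/

section slot

variable {Al : ℕ → Pt → Prop} {K : ℕ} {P : Pt} {sg : ℕ → Pt → ℝ} {u : ℤ → ℤ → ι → ℝ}
  {κ : ℕ → ℝ}

/-- the stopped indicator of `RT` at the label point `x1` -/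
def muT (Al : ℕ → Pt → Prop) (o : ℤ) (K : ℕ) (P : Pt) (sg : ℕ → Pt → ℝ) (l : ℝ)
    (u : ℤ → ℤ → ι → ℝ) (κ : ℕ → ℝ) (x1 : ℤ) : ℕ → ℤ → ℤ → ℝ :=
  muS l K (KT l u x1) (fun g => κ g ^ 6) o x1 (s0 Al o K P sg x1)

theorem sgn_mu (x1 : ℤ) (k : ℕ) (a b : ℤ) :
    sgn Al o K P sg l u κ 0 x1 k a b =
      (1 - muT Al o K P sg l u κ x1 k a b) * s0 Al o K P sg x1 k a b :=
  sG_mu k a b

/-- **the stopped points of `x0`, every `x1`, `x3`, by the top trace alone** -/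
theorem sum_mu_T (hl : 0 < l) (ho : o = 1 ∨ o = -1) (hsg : ∀ k m, |sg k m| ≤ 1)
    (hκ : ∀ g, 0 < κ g) (T : Finset ℤ) (x3 x1 : ℤ) :
    ∑ t ∈ T, ∑ x0 ∈ iv K t, muT Al o K P sg l u κ x1 0 x0 x3 ≤
      2 ^ K * (1260000 * (GT u x1 K P.2.1).trace / (l * κ 0 ^ 6)) := by
  have h1 := sum_le_sum fun t (_ : t ∈ T) => sum_mu (x1 := x1) (H677.tr_T hl K u x1)
    (s0_le (Al := Al) (o := o) (K := K) (P := P) hsg x1) ho hκ t x3
  refine h1.trans ?_
  rw [← sum_div, ← mul_sum]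
  have e : (2 : ℝ) ^ K * (1260000 * (GT u x1 K P.2.1).trace / (l * κ 0 ^ 6)) =
      2520000 * (2 ^ K * ((2 * l)⁻¹ * (GT u x1 K P.2.1).trace)) / κ 0 ^ 6 := by
    have := hκ 0
    field_simp
    ring
  rw [e]
  refine div_le_div_of_nonneg_right (mul_le_mul_of_nonneg_left ?_ (by norm_num))
    (pow_pos (hκ 0) 6).le
  rw [sum_comm]
  have h2 : ∀ a : ι, ∑ t ∈ T, ∑ x0 ∈ iv K t, nsq (H841.Rm (MT l (KT l u x1)) o x1
      (s0 Al o K P sg x1) K 0 x0 x3 *ᵥ Pi.single a 1) ≤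
      2 ^ K * ((2 * l)⁻¹ * ((Pi.single a (1 : ℝ) : ι → ℝ) ⬝ᵥ GT u x1 K P.2.1 *ᵥ
        Pi.single a 1)) := by
    intro a
    refine le_trans (le_of_eq (sum_congr rfl fun t _ => sum_congr rfl fun x0 _ => ?_))
      (H483.RT_end (A := Al) (o := o) (M := P) hl hsg T x3 x1 (Pi.single a 1))
    rw [RT_Rm]
    rfl
  refine (sum_le_sum fun a _ => h2 a).trans (le_of_eq ?_)
  rw [← mul_sum, ← mul_sum]
  congr 2
  rw [Matrix.trace]
  refine sum_congr rfl fun a _ => ?_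
  rw [mulVec_single_one, single_dotProduct, one_mul, col_apply, diag_apply]

end slot

end

end Vale.Agent.P141.H501
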